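import Vale.Agent.P284.H593.Defs
import Vale.Agent.P284.H422.WM
import Mathlib.Algebra.MonoidAlgebra.Basic
import Mathlib.Algebra.Algebra.Operations

/-! Automorphism groups of residually torsion-free nilpotent groups (helper142): the Johnson
filtration, defined by the powers of the augmentation ideal of the rational group algebra. -/

set_option autoImplicit false

namespace Vale.Agent.P284.H142

open Function

universe u

variable {N : Type u} [Group N]

/-- the augmentation ideal of the rational group algebra -/
noncomputable def augI (N : Type u) [Group N] : Submodule ℚ (MonoidAlgebra ℚ N) :=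
  LinearMap.ker (MonoidAlgebra.lift ℚ ℚ N (1 : N →* ℚ)).toLinearMap

/-- the element `g` of the group algebra -/
noncomputable def el (g : N) : MonoidAlgebra ℚ N := MonoidAlgebra.of ℚ N g

theorem el_mul (g h : N) : el (g * h) = el g * el h := map_mul _ _ _

theorem el_one : el (1 : N) = 1 := map_one _

theorem el_sub_mem (g h : N) : el g - el h ∈ augI N := by
  unfold augI el
  rw [LinearMap.mem_ker, map_sub]
  simp

theorem mul_mem_aug {a b : MonoidAlgebra ℚ N} (hb : b ∈ augI N) : a * b ∈ augI N := by
  unfold augI at *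
  rw [LinearMap.mem_ker] at *
  change (MonoidAlgebra.lift ℚ ℚ N (1 : N →* ℚ)) (a * b) = 0
  rw [map_mul]
  change _ * (MonoidAlgebra.lift ℚ ℚ N (1 : N →* ℚ)).toLinearMap b = 0
  rw [hb, mul_zero]

theorem pow_succ_le (k : ℕ) (hk : 1 ≤ k) : augI N ^ (k + 1) ≤ augI N ^ k := by
  obtain ⟨j, rfl⟩ : ∃ j, k = j + 1 := ⟨k - 1, by omega⟩
  rw [pow_succ (augI N) (j + 1), pow_succ (augI N) j, mul_assoc]
  refine mul_le_mul' le_rfl ?_
  rw [Submodule.mul_le]
  intro a _ b hb
  exact mul_mem_aug hb

theorem pow_le_of_le {k l : ℕ} (hk : 1 ≤ k) (h : k ≤ l) : augI N ^ l ≤ augI N ^ k := by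
  induction l, h using Nat.le_induction with
  | base => exact le_rfl
  | succ n hn ih => exact (pow_succ_le n (hk.trans hn)).trans ih

/-- the action of an automorphism on the group algebra -/
noncomputable def act (φ : MulAut N) : MonoidAlgebra ℚ N ≃ₐ[ℚ] MonoidAlgebra ℚ N :=
  MonoidAlgebra.domCongr ℚ ℚ φ

theorem act_el (φ : MulAut N) (g : N) : act φ (el g) = el (φ g) := by
  unfold act el
  simp

theorem act_mem_aug (φ : MulAut N) {x : MonoidAlgebra ℚ N} (hx : x ∈ augI N) :
    act φ x ∈ augI N := by
  have h : ∀ y, (MonoidAlgebra.lift ℚ ℚ N (1 : N →* ℚ)) (act φ y) =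
      MonoidAlgebra.lift ℚ ℚ N (1 : N →* ℚ) y := by
    intro y
    induction y using MonoidAlgebra.induction_on with
    | of g =>
      have := act_el φ g
      unfold el at this
      rw [this, MonoidAlgebra.lift_of, MonoidAlgebra.lift_of]
      rfl
    | add a b ha hb => rw [map_add, map_add, map_add, ha, hb]
    | smul c a ha => rw [map_smul, map_smul, map_smul, ha]
  unfold augI at *
  rw [LinearMap.mem_ker] at *
  change (MonoidAlgebra.lift ℚ ℚ N (1 : N →* ℚ)) (act φ x) = 0
  change (MonoidAlgebra.lift ℚ ℚ N (1 : N →* ℚ)) x = 0 at hx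
  rw [h, hx]

/-- if `φ g - g` is in `I ^ k` for all `g`, then `φ x - x` is in `I ^ k` for all `x` -/
theorem act_sub_mem (φ : MulAut N) {k : ℕ} (h : ∀ g : N, el (φ g) - el g ∈ augI N ^ k)
    (x : MonoidAlgebra ℚ N) : act φ x - x ∈ augI N ^ k := by
  induction x using MonoidAlgebra.induction_on with
  | of g =>
    have := h g
    rw [← act_el] at this
    exact this
  | add x y hx hy =>
    rw [map_add, add_sub_add_comm]
    exact add_mem hx hy
  | smul c x hx =>
    rw [map_smul, ← smul_sub]
    exact Submodule.smul_mem _ _ hx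

/-- automorphisms which are trivial on `I / I²` are trivial on `I ^ k / I ^ (k + 1)` -/
theorem act_sub_mem_pow (φ : MulAut N) (h : ∀ g : N, el (φ g) - el g ∈ augI N ^ 2) (k : ℕ) :
    ∀ x ∈ augI N ^ (k + 1), act φ x - x ∈ augI N ^ (k + 2) := by
  induction k with
  | zero =>
    intro x _
    exact act_sub_mem φ h x
  | succ k ih =>
    intro x hx
    rw [pow_succ] at hx
    induction hx using Submodule.mul_induction_on' with
    | mem_mul_mem a ha b hb =>
      have h1 : act φ (a * b) - a * b = (act φ a - a) * act φ b + a * (act φ b - b) := by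
        rw [map_mul]
        noncomm_ring
      rw [h1]
      refine add_mem ?_ ?_
      · rw [pow_succ (augI N) (k + 2)]
        exact Submodule.mul_mem_mul (ih a ha) (act_mem_aug φ hb)
      · have h2 : augI N ^ (k + 1 + 2) = augI N ^ (k + 1) * augI N ^ 2 := pow_add _ _ _
        rw [h2]
        exact Submodule.mul_mem_mul ha (act_sub_mem φ h b)
    | add x _ y _ hx hy =>
      rw [map_add, add_sub_add_comm]
      exact add_mem hx hy

end Vale.Agent.P284.H142
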