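import Mathlib.Data.Real.Basic
import Mathlib.GroupTheory.Index
import Mathlib.LinearAlgebra.Matrix.GeneralLinearGroup.Defs
import Mathlib.Analysis.Complex.Basic

/-! Classes of groups (helper142, helper422, helper673). -/

namespace Vale.Agent.P284.H142

universe u

/-- `G` is amenable: there is a finitely additive left-invariant probability on all subsets. -/
def Amenable (G : Type u) [Group G] : Prop :=
  ∃ m : Set G → ℝ, (∀ A, 0 ≤ m A) ∧ m Set.univ = 1 ∧
    (∀ A B, Disjoint A B → m (A ∪ B) = m A + m B) ∧ ∀ (g : G) (A : Set G), m {x | g * x ∈ A} = m A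

/-- Some finite-index subgroup of `G` has a left-invariant linear order. -/
def VirtLeftOrderable (G : Type u) [Group G] : Prop :=
  ∃ H : Subgroup G, H.FiniteIndex ∧ ∃ _ : LinearOrder H, ∀ a b c : H, b < c → a * b < a * c

/-- `G` is bi-orderable: it has a linear order which is invariant under left and right
multiplication. -/
def BiOrderable (G : Type u) [Group G] : Prop :=
  ∃ _ : LinearOrder G, ∀ a b c : G, b < c → a * b < a * c ∧ b * a < c * a

/-- The increasing bijections `F g` of `ℝ` are lifts of a faithful action of `G` on the circle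
`ℝ / ℤ` by orientation-preserving homeomorphisms. -/
def CircleAct {G : Type u} [Group G] (F : G → ℝ ≃o ℝ) : Prop :=
  (∀ g x, F g (x + 1) = F g x + 1) ∧ (∀ g h, ∃ k : ℤ, ∀ x, F (g * h) x = F g (F h x) + k) ∧
    ∀ (g : G) (k : ℤ), (∀ x, F g x = x + k) → g = 1

/-- `N` is residually unipotent: every element other than `1` acts nontrivially in some
representation of `N` by upper unitriangular complex matrices. By theorems of Malcev and Jennings
this means, for finitely generated `N`, that `N` is residually torsion-free nilpotent. -/
def ResUnipotent (N : Type u) [Group N] : Prop :=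
  ∀ g : N, g ≠ 1 → ∃ (d : ℕ) (ρ : N →* Matrix.GeneralLinearGroup (Fin d) ℂ),
    (∀ (x : N) (i j : Fin d), j ≤ i →
      (ρ x : Matrix (Fin d) (Fin d) ℂ) i j = if i = j then 1 else 0) ∧ ρ g ≠ 1

end Vale.Agent.P284.H142
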