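import Vale.Agent.P284.H142.Res

/-! Closure properties of the classes `LocVirtInd` and `Tame` (helper142). -/

set_option autoImplicit false

namespace Vale.Agent.P284.H142

open Function Vale.Agent.P284.H593

universe u

theorem LocVirtInd.virtInd {Q : Type u} [Group Q] [hfg : Group.FG Q] [Infinite Q]
    (h : LocVirtInd Q) : VirtInd Q := by
  have h1 : Infinite (⊤ : Subgroup Q) :=
    Infinite.of_injective (Subgroup.topEquiv (G := Q)).symm (Subgroup.topEquiv (G := Q)).symm.injective
  exact (h ⊤ ((Group.fg_iff_subgroup_fg _).1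
    (Group.fg_of_surjective (f := (Subgroup.topEquiv (G := Q)).symm.toMonoidHom)
      (Subgroup.topEquiv (G := Q)).symm.surjective)) h1).of_surjective
    (Subgroup.topEquiv (G := Q)).symm.toMonoidHom (Subgroup.topEquiv (G := Q)).symm.surjective

theorem infinite_of_finiteIndex {K : Type u} [Group K] [Infinite K] (H : Subgroup K)
    (hH : H.FiniteIndex) : Infinite H := by
  by_contra h3
  rw [not_infinite_iff_finite] at h3
  have h4 := H.card_mul_index
  rw [Nat.card_eq_zero_of_infinite (α := K)] at h4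
  rcases Nat.mul_eq_zero.1 h4 with h5 | h5
  · exact Nat.card_pos.ne' h5
  · exact hH.index_ne_zero h5

/-- `LocVirtInd` is closed under extensions -/
theorem LocVirtInd.of_ext {Q P : Type u} [Group Q] [Group P] (f : Q →* P)
    (hk : LocVirtInd f.ker) (hP : LocVirtInd P) : LocVirtInd Q := by
  intro K hK hinf
  have hKfg : Group.FG K := (Group.fg_iff_subgroup_fg _).2 hK
  by_cases hfin : Finite (K.map f)
  · let L : Subgroup K := (f.comp K.subtype).ker
    have hr : (f.comp K.subtype).range = K.map f := by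
      rw [MonoidHom.range_comp, Subgroup.range_subtype]
    have hfr : Finite (f.comp K.subtype).range := by
      rw [hr]
      exact hfin
    have hL : L.FiniteIndex := by
      constructor
      rw [Subgroup.index_ker]
      exact Nat.card_pos.ne'
    have hLfg : Group.FG L := inferInstance
    have hLinf : Infinite L := infinite_of_finiteIndex L hL
    let i : L →* f.ker := (K.subtype.comp L.subtype).codRestrict f.ker (fun x => x.2)
    have hi : Injective i := by
      intro a b hab
      have h1 := congrArg Subtype.val hab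
      exact Subtype.ext (Subtype.ext h1)
    exact VirtInd.of_finiteIndex L hL (LocVirtInd.virtInd (LocVirtInd.of_injective i hi hk))
  · have hfg : Group.FG (K.map f) :=
      Group.fg_of_surjective (f := f.subgroupMap K) (f.subgroupMap_surjective K)
    have h1 := hP (K.map f) ((Group.fg_iff_subgroup_fg _).1 hfg) (not_finite_iff_infinite.1 hfin)
    exact h1.of_surjective (f.subgroupMap K) (f.subgroupMap_surjective K)

/-- extensions of tame groups by locally virtually indicable groups are tame -/
theorem Tame.of_ext {Q P : Type u} [Group Q] [Group P] (f : Q →* P)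
    (hk : LocVirtInd f.ker) (hP : Tame P) : Tame Q := by
  obtain ⟨d, ρ, hρ⟩ := hP
  refine ⟨d, ρ.comp f, ?_⟩
  let F : (ρ.comp f).ker →* ρ.ker :=
    (f.comp (ρ.comp f).ker.subtype).codRestrict ρ.ker (fun x => x.2)
  refine LocVirtInd.of_ext F ?_ hρ
  let i : F.ker →* f.ker :=
    ((ρ.comp f).ker.subtype.comp F.ker.subtype).codRestrict f.ker (fun x => by
      have h1 : F x.1 = 1 := x.2
      exact congrArg Subtype.val h1)
  refine LocVirtInd.of_injective i ?_ hk
  intro a b hab
  have h1 := congrArg Subtype.val hab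
  exact Subtype.ext (Subtype.ext h1)

/-- block sums of complex representations -/
theorem exists_sum {Q : Type u} [Group Q] {d e : ℕ} (ρ : Q →* Matrix.GeneralLinearGroup (Fin d) ℂ)
    (σ : Q →* Matrix.GeneralLinearGroup (Fin e) ℂ) :
    ∃ τ : Q →* Matrix.GeneralLinearGroup (Fin (d + e)) ℂ,
      ∀ x, τ x = 1 → ρ x = 1 ∧ σ x = 1 := by
  let B : Q →* Matrix (Fin d ⊕ Fin e) (Fin d ⊕ Fin e) ℂ :=
    { toFun := fun x => Matrix.fromBlocks (ρ x : Matrix (Fin d) (Fin d) ℂ) 0 0
        (σ x : Matrix (Fin e) (Fin e) ℂ)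
      map_one' := by simp
      map_mul' := fun x y => by simp [Matrix.fromBlocks_multiply] }
  let C := (Matrix.reindexAlgEquiv ℂ ℂ (finSumFinEquiv (m := d) (n := e))).toMulEquiv.toMonoidHom
  refine ⟨(C.comp B).toHomUnits, fun x hx => ?_⟩
  have h1 : C (B x) = 1 := by
    have := congrArg Units.val hx
    simpa using this
  have h2 : B x = 1 := by
    apply (Matrix.reindexAlgEquiv ℂ ℂ (finSumFinEquiv (m := d) (n := e))).injective
    rw [map_one]
    exact h1
  have h3 : Matrix.fromBlocks (ρ x : Matrix (Fin d) (Fin d) ℂ) 0 0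
        (σ x : Matrix (Fin e) (Fin e) ℂ) = Matrix.fromBlocks 1 0 0 1 := by
    rw [Matrix.fromBlocks_one]
    exact h2
  rw [Matrix.fromBlocks_inj] at h3
  exact ⟨Units.ext h3.1, Units.ext h3.2.2.2⟩

/-- products of tame groups are tame -/
theorem Tame.prod {Q P : Type u} [Group Q] [Group P] (hQ : Tame Q) (hP : Tame P) :
    Tame (Q × P) := by
  obtain ⟨d, ρ, hρ⟩ := hQ
  obtain ⟨e, σ, hσ⟩ := hP
  obtain ⟨τ, hτ⟩ := exists_sum (ρ.comp (MonoidHom.fst Q P)) (σ.comp (MonoidHom.snd Q P))
  refine ⟨d + e, τ, ?_⟩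
  let F : τ.ker →* ρ.ker :=
    ((MonoidHom.fst Q P).comp τ.ker.subtype).codRestrict ρ.ker (fun x => (hτ x.1 x.2).1)
  refine LocVirtInd.of_ext F ?_ hρ
  let i : F.ker →* σ.ker :=
    (((MonoidHom.snd Q P).comp τ.ker.subtype).comp F.ker.subtype).codRestrict σ.ker
      (fun x => (hτ x.1.1 x.1.2).2)
  refine LocVirtInd.of_injective i ?_ hσ
  intro a b hab
  have h1 : a.1.1.2 = b.1.1.2 := congrArg Subtype.val hab
  have h2 : a.1.1.1 = 1 := congrArg Subtype.val (show F a.1 = 1 from a.2)
  have h3 : b.1.1.1 = 1 := congrArg Subtype.val (show F b.1 = 1 from b.2)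
  exact Subtype.ext (Subtype.ext (Prod.ext (h2.trans h3.symm) h1))

end Vale.Agent.P284.H142
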