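import Vale.Agent.P284.H142.Ext
import Mathlib.RingTheory.Filtration
import Mathlib.RingTheory.LocalRing.ResidueField.Basic

/-! Automorphism groups of Noetherian local algebras with residue field `ℂ` (helper142). -/

set_option autoImplicit false

namespace Vale.Agent.P284.H142

open Function Vale.Agent.P284.H593

universe u

variable {A : Type u} [CommRing A] [IsLocalRing A] [Algebra ℂ A]

theorem map_mem_max (g : A ≃ₐ[ℂ] A) {a : A} (ha : a ∈ IsLocalRing.maximalIdeal A) :
    g a ∈ IsLocalRing.maximalIdeal A := by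
  rw [IsLocalRing.mem_maximalIdeal, mem_nonunits_iff] at ha ⊢
  intro h
  exact ha ((MulEquiv.isUnit_map g).1 h)

theorem map_mem_max_pow (g : A ≃ₐ[ℂ] A) (k : ℕ) :
    ∀ a ∈ IsLocalRing.maximalIdeal A ^ k, g a ∈ IsLocalRing.maximalIdeal A ^ k := by
  have h1 : Ideal.map g (IsLocalRing.maximalIdeal A) ≤ IsLocalRing.maximalIdeal A := by
    rw [Ideal.map_le_iff_le_comap]
    intro a ha
    exact map_mem_max g ha
  intro a ha
  have h2 : g a ∈ Ideal.map g (IsLocalRing.maximalIdeal A ^ k) := Ideal.mem_map_of_mem g ha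
  rw [Ideal.map_pow] at h2
  exact Ideal.pow_right_mono h1 k h2

theorem sub_mem_max_pow (g : A ≃ₐ[ℂ] A) (h : ∀ a, g a - a ∈ IsLocalRing.maximalIdeal A ^ 2)
    (k : ℕ) : ∀ a ∈ IsLocalRing.maximalIdeal A ^ k,
      g a - a ∈ IsLocalRing.maximalIdeal A ^ (k + 1) := by
  induction k with
  | zero =>
    intro a _
    exact Ideal.pow_le_pow_right (by norm_num) (h a)
  | succ k ih =>
    intro a ha
    rw [pow_succ] at ha
    induction ha using Submodule.mul_induction_on' with
    | mem_mul_mem x hx y hy =>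
      have e : g (x * y) - x * y = (g x - x) * g y + x * (g y - y) := by
        rw [map_mul]
        ring
      rw [e]
      refine add_mem ?_ ?_
      · rw [pow_succ _ (k + 1)]
        exact Ideal.mul_mem_mul (ih x hx) (map_mem_max g hy)
      · have e2 : k + 1 + 1 = k + 2 := rfl
        rw [e2, pow_add]
        exact Ideal.mul_mem_mul hx (h y)
    | add x _ y _ hx hy =>
      have e : g (x + y) - (x + y) = (g x - x) + (g y - y) := by
        rw [map_add]
        ring
      rw [e]
      exact add_mem hx hy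

/-- a linear functional separating a vector from a subspace -/
theorem exists_functional_complex {V : Type u} [AddCommGroup V] [Module ℂ V] (p : Submodule ℂ V)
    {x : V} (hx : x ∉ p) : ∃ l : V →ₗ[ℂ] ℂ, (∀ y ∈ p, l y = 0) ∧ l x ≠ 0 := by
  obtain ⟨l, h1, h2⟩ := Submodule.exists_dual_map_eq_bot_of_notMem (p := p) hx inferInstance
  refine ⟨l, fun y hy => ?_, h1⟩
  have h3 : l y ∈ p.map l := Submodule.mem_map_of_mem hy
  rw [h2] at h3
  simpa using h3

theorem exists_index_loc [IsNoetherianRing A] (K : Subgroup (A ≃ₐ[ℂ] A))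
    (h1 : ∀ g ∈ K, ∀ a, g a - a ∈ IsLocalRing.maximalIdeal A ^ 2) (hne : K ≠ ⊥) :
    ∃ k : ℕ, (∃ g ∈ K, ∃ a, g a - a ∉ IsLocalRing.maximalIdeal A ^ (k + 2)) ∧
      ∀ g ∈ K, ∀ a, g a - a ∈ IsLocalRing.maximalIdeal A ^ (k + 1) := by
  classical
  have hex : ∃ k : ℕ, ∃ g ∈ K, ∃ a, g a - a ∉ IsLocalRing.maximalIdeal A ^ (k + 2) := by
    by_contra hcon
    push Not at hcon
    apply hne
    rw [Subgroup.eq_bot_iff_forall]
    intro g hg
    ext a
    have h2 : g a - a ∈ ⨅ i : ℕ, IsLocalRing.maximalIdeal A ^ i := by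
      rw [Ideal.mem_iInf]
      intro i
      exact Ideal.pow_le_pow_right (by omega : i ≤ i + 2) (hcon i g hg a)
    rw [Ideal.iInf_pow_eq_bot_of_isLocalRing _ (IsLocalRing.maximalIdeal.isMaximal A).ne_top] at h2
    exact sub_eq_zero.1 ((Submodule.mem_bot A).1 h2)
  obtain ⟨k, hk1, hmin⟩ : ∃ k : ℕ,
      (∃ g ∈ K, ∃ a, g a - a ∉ IsLocalRing.maximalIdeal A ^ (k + 2)) ∧
      ∀ j < k, ¬ ∃ g ∈ K, ∃ a, g a - a ∉ IsLocalRing.maximalIdeal A ^ (j + 2) :=
    ⟨Nat.find hex, Nat.find_spec hex, fun j hj => Nat.find_min hex hj⟩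
  refine ⟨k, hk1, ?_⟩
  rcases Nat.eq_zero_or_pos k with h0 | h0
  · subst h0
    intro g hg a
    exact Ideal.pow_le_pow_right (by norm_num) (h1 g hg a)
  · have h3 := hmin (k - 1) (by omega)
    push Not at h3
    have h4 : k - 1 + 2 = k + 1 := by omega
    rw [h4] at h3
    exact h3

theorem exists_surj_loc [IsNoetherianRing A] (K : Subgroup (A ≃ₐ[ℂ] A)) (hK : K.FG)
    (h1 : ∀ g ∈ K, ∀ a, g a - a ∈ IsLocalRing.maximalIdeal A ^ 2) (hne : K ≠ ⊥) :
    ∃ f : K →* Multiplicative ℤ, Surjective f := by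
  have hKfg : Group.FG K := (Group.fg_iff_subgroup_fg _).2 hK
  obtain ⟨k, ⟨g₀, hg₀, a, ha⟩, hk2⟩ := exists_index_loc K h1 hne
  obtain ⟨l, hl1, hl2⟩ := exists_functional_complex
    ((IsLocalRing.maximalIdeal A ^ (k + 2)).restrictScalars ℂ) (x := g₀ a - a) ha
  have hadd : ∀ g h : K, l ((g * h).1 a - a) = l (g.1 a - a) + l (h.1 a - a) := by
    intro g h
    have e : (g * h).1 a - a = (g.1 (h.1 a - a) - (h.1 a - a)) + ((g.1 a - a) + (h.1 a - a)) := by
      rw [map_sub]
      change g.1 (h.1 a) - a = _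
      ring
    have e2 : g.1 (h.1 a - a) - (h.1 a - a) ∈ IsLocalRing.maximalIdeal A ^ (k + 2) :=
      sub_mem_max_pow g.1 (h1 g.1 g.2) (k + 1) _ (hk2 h.1 h.2 a)
    rw [e, map_add, hl1 _ e2, zero_add, map_add]
  let F : K →* Multiplicative ℝ := MonoidHom.mk'
    (fun g => Multiplicative.ofAdd (l (g.1 a - a)).re) (by
    intro g h
    rw [← ofAdd_add, ← Complex.add_re, ← hadd])
  let F' : K →* Multiplicative ℝ := MonoidHom.mk'
    (fun g => Multiplicative.ofAdd (l (g.1 a - a)).im) (by
    intro g h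
    rw [← ofAdd_add, ← Complex.add_im, ← hadd])
  by_cases hre : (l (g₀ a - a)).re = 0
  · refine WM.exists_int_hom F' (z := ⟨g₀, hg₀⟩) ?_
    intro h
    apply hl2
    exact Complex.ext hre h
  · refine WM.exists_int_hom F (z := ⟨g₀, hg₀⟩) ?_
    intro h
    exact hre h

/-- `A ⧸ 𝔪²` is finite-dimensional over `ℂ` -/
theorem finite_quot [IsNoetherianRing A]
    (hres : Surjective (algebraMap ℂ (IsLocalRing.ResidueField A))) :
    FiniteDimensional ℂ (A ⧸ (IsLocalRing.maximalIdeal A ^ 2).restrictScalars ℂ) := by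
  classical
  set p := (IsLocalRing.maximalIdeal A ^ 2).restrictScalars ℂ
  obtain ⟨s, hs⟩ := (IsNoetherian.noetherian (IsLocalRing.maximalIdeal A) :
    (IsLocalRing.maximalIdeal A).FG)
  have hc : ∀ a : A, ∃ c : ℂ, a - algebraMap ℂ A c ∈ IsLocalRing.maximalIdeal A := by
    intro a
    obtain ⟨c, hc⟩ := hres (IsLocalRing.residue A a)
    refine ⟨c, ?_⟩
    rw [← IsLocalRing.residue_eq_zero_iff, map_sub, ← hc]
    rw [IsScalarTower.algebraMap_apply ℂ A (IsLocalRing.ResidueField A)]
    exact sub_self _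
  have hspan : Submodule.span ℂ (p.mkQ '' (insert 1 (s : Set A))) = ⊤ := by
    rw [eq_top_iff]
    rintro x -
    obtain ⟨a, rfl⟩ := p.mkQ_surjective x
    obtain ⟨c, hc1⟩ := hc a
    have h1 : ∀ b ∈ IsLocalRing.maximalIdeal A,
        p.mkQ b ∈ Submodule.span ℂ (p.mkQ '' (insert 1 (s : Set A))) := by
      intro b hb
      rw [← hs] at hb
      induction hb using Submodule.span_induction with
      | mem x hx => exact Submodule.subset_span ⟨x, Or.inr hx, rfl⟩
      | zero => rw [map_zero]; exact zero_mem _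
      | add x y _ _ hx hy => rw [map_add]; exact add_mem hx hy
      | smul r x hx' hx =>
        obtain ⟨e, he⟩ := hc r
        have h2 : r • x = e • x + (r - algebraMap ℂ A e) * x := by
          rw [smul_eq_mul, Algebra.smul_def]
          ring
        have h3 : p.mkQ ((r - algebraMap ℂ A e) * x) = 0 := by
          rw [Submodule.mkQ_apply, Submodule.Quotient.mk_eq_zero]
          change (r - algebraMap ℂ A e) * x ∈ IsLocalRing.maximalIdeal A ^ 2
          rw [pow_two]
          refine Ideal.mul_mem_mul he ?_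
          rw [← hs]
          exact hx'
        rw [h2, map_add, h3, add_zero, map_smul]
        exact Submodule.smul_mem _ _ hx
    have h2 : a = c • (1 : A) + (a - algebraMap ℂ A c) := by
      rw [Algebra.smul_def]
      ring
    rw [h2, map_add, map_smul]
    exact add_mem (Submodule.smul_mem _ _ (Submodule.subset_span ⟨1, Or.inl rfl, rfl⟩)) (h1 _ hc1)
  exact ⟨⟨((s.finite_toSet.insert 1).image p.mkQ).toFinset, by
    rw [Set.Finite.coe_toFinset]
    exact hspan⟩⟩

/-- the action on `A ⧸ 𝔪²` -/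
noncomputable def quotRep (A : Type u) [CommRing A] [IsLocalRing A] [Algebra ℂ A] :
    (A ≃ₐ[ℂ] A) →*
      Module.End ℂ (A ⧸ (IsLocalRing.maximalIdeal A ^ 2).restrictScalars ℂ) where
  toFun g := Submodule.mapQ _ _ g.toLinearMap (fun a ha => map_mem_max_pow g 2 a ha)
  map_one' := by
    refine Submodule.linearMap_qext _ ?_
    ext a
    rfl
  map_mul' g h := by
    refine Submodule.linearMap_qext _ ?_
    ext a
    rfl

/-- **Automorphism groups of local algebras**: if `A` is a Noetherian local `ℂ`-algebra with residue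
field `ℂ` then its automorphism group is tame. -/
theorem tame_algAut [IsNoetherianRing A]
    (hres : Surjective (algebraMap ℂ (IsLocalRing.ResidueField A))) : Tame (A ≃ₐ[ℂ] A) := by
  classical
  have hfd := finite_quot hres
  let V := A ⧸ (IsLocalRing.maximalIdeal A ^ 2).restrictScalars ℂ
  let e : Module.End ℂ V ≃ₐ[ℂ] Matrix
      (Fin (Module.finrank ℂ V)) (Fin (Module.finrank ℂ V)) ℂ :=
    LinearMap.toMatrixAlgEquiv (Module.finBasis ℂ V)
  let σ : (A ≃ₐ[ℂ] A) →* Matrix.GeneralLinearGroup (Fin (Module.finrank ℂ V)) ℂ :=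
    (Units.map (e : Module.End ℂ V →* _)).comp (quotRep A).toHomUnits
  refine ⟨_, σ, ?_⟩
  have hker : ∀ g : A ≃ₐ[ℂ] A, g ∈ σ.ker → ∀ a, g a - a ∈ IsLocalRing.maximalIdeal A ^ 2 := by
    intro g hg a
    have h1 : σ g = 1 := hg
    have h2 : e (quotRep A g) = 1 := congrArg Units.val h1
    have h3 : quotRep A g = 1 := by
      apply e.injective
      rw [h2, map_one]
    have h4 : quotRep A g (Submodule.Quotient.mk a) = Submodule.Quotient.mk a := by
      rw [h3]
      rfl
    exact (Submodule.Quotient.eq _).1 h4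
  intro K hK hinf
  let i : K ≃* K.map σ.ker.subtype :=
    Subgroup.equivMapOfInjective K σ.ker.subtype σ.ker.subtype_injective
  have hKfg : Group.FG K := (Group.fg_iff_subgroup_fg _).2 hK
  have hfg : Group.FG (K.map σ.ker.subtype) :=
    Group.fg_of_surjective (f := i.toMonoidHom) i.surjective
  have hinf' : Infinite (K.map σ.ker.subtype) := Infinite.of_injective i i.injective
  obtain ⟨f, hf⟩ := exists_surj_loc (K.map σ.ker.subtype)
    ((Group.fg_iff_subgroup_fg _).1 hfg) (by
      rintro g ⟨h, _, rfl⟩ a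
      exact hker _ h.2 a) (by
      intro hbot
      rw [hbot] at hinf'
      exact not_finite (⊥ : Subgroup (A ≃ₐ[ℂ] A)))
  have h3 : VirtInd (K.map σ.ker.subtype) :=
    ⟨⊤, inferInstance, f.comp Subgroup.topEquiv.toMonoidHom, by
      intro z
      obtain ⟨x, hx⟩ := hf z
      exact ⟨⟨x, trivial⟩, hx⟩⟩
  exact h3.of_surjective i.toMonoidHom i.surjective

end Vale.Agent.P284.H142
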