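import Vale.Agent.P284.H142.GLT
import Mathlib.Algebra.MvPolynomial.Cardinal

/-! Uniform version of the linear restriction (helper142). -/

set_option autoImplicit false

namespace Vale.Agent.P284.H142

open Function Vale.Agent.P284.H593

universe v

/-- every countable domain of characteristic zero embeds into `ℂ` -/
def Emb : Prop :=
  ∀ (D : Type) [CommRing D] [IsDomain D] [CharZero D] [Countable D],
      ∃ φ : D →+* ℂ, Injective φ

/-- congruence subgroups modulo nilpotent ideals are locally indicable -/
def Nilp : Prop :=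
  ∀ {Q : Type} [Group Q] {U : Type} [CommRing U] [Algebra ℚ U] (n : Ideal U)
      (_ : IsNilpotent n) {d : ℕ} (ρ : Q →* Matrix (Fin d) (Fin d) U) (_ : Injective ρ)
      (_ : ∀ g i j, ρ g i j - (1 : Matrix (Fin d) (Fin d) U) i j ∈ n), LocInd Q

variable {G : Type} [Group G]

theorem countable_uring [Group.FG G] (d : ℕ) : Countable (URing G d) := by
  have h1 : Countable G := WM.countable_of_fg
  have h2 : Countable (MvPolynomial (G × Fin d × Fin d) ℚ) := by
    have := MvPolynomial.cardinalMk_le_max (σ := G × Fin d × Fin d) (R := ℚ)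
    rw [← Cardinal.mk_le_aleph0_iff]
    exact this.trans (max_le (max_le Cardinal.mk_le_aleph0 Cardinal.mk_le_aleph0) le_rfl)
  exact (Ideal.Quotient.mk_surjective (I := relI G d)).countable

theorem tame_universal (hE : Emb) (hNl : Nilp) [Group.FG G] (d : ℕ) :
    Tame (urep G d).toHomUnits.range := by
  have h1 := countable_uring (G := G) d
  have h2 := finiteType (G := G) (d := d)
  have h3 : IsNoetherianRing (URing G d) := Algebra.FiniteType.isNoetherianRing ℚ _
  have h4 : Tame (Matrix.GeneralLinearGroup (Fin d) (URing G d)) := tame_GL d hE hNl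
  exact Tame.of_injective (urep G d).toHomUnits.range.subtype
    (urep G d).toHomUnits.range.subtype_injective h4

/-- what the universal representation kills is killed by all -/
theorem ker_universal (d : ℕ) {x : G} (hx : (urep G d).toHomUnits x = 1) (R : Type v) [CommRing R]
    [Algebra ℚ R] (ρ : G →* Matrix.GeneralLinearGroup (Fin d) R) : ρ x = 1 := by
  obtain ⟨φ, hφ⟩ := exists_spec R ρ
  apply Units.ext
  rw [hφ x]
  have h1 : urep G d x = 1 := congrArg Units.val hx
  rw [h1, Matrix.map_one φ (map_zero φ) (map_one φ)]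
  rfl

/-- **Uniform abelianity**: for every `d` there is one finite-index subgroup of `G` which has abelian
image under all representations of `G` of dimension `d` over all commutative `ℚ`-algebras. -/
theorem uniform (hE : Emb) (hNl : Nilp) {N : ℕ} (h : Restricted G N) (d : ℕ) :
    ∃ H : Subgroup G, H.FiniteIndex ∧ ∀ (R : Type v) [CommRing R] [Algebra ℚ R]
      (ρ : G →* Matrix.GeneralLinearGroup (Fin d) R), ∀ a ∈ H, ∀ b ∈ H, ρ a * ρ b = ρ b * ρ a := by
  have hfg : Group.FG G := (exists_max N (fun H hH k f hf =>
    (h.1 H hH).1 k (fun x => Multiplicative.toAdd (f x)) (fun x y i => by rw [map_mul]; rfl) hf)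
    (fun H hH => (h.1 H hH).2) h.2).1
  have h1 := (group_main h).2.1 (urep G d).toHomUnits.range (urep G d).toHomUnits.rangeRestrict
    (urep G d).toHomUnits.rangeRestrict_surjective
  obtain ⟨A, hA, hab⟩ := (h1.out 0 3 : Tame (urep G d).toHomUnits.range ↔
    VirtAb (urep G d).toHomUnits.range).1 (tame_universal hE hNl d)
  refine ⟨A.comap (urep G d).toHomUnits.rangeRestrict, finiteIndex_comap _ _ hA, ?_⟩
  intro R _ _ ρ a ha b hb
  have h2 := hab _ ha _ hb
  have h3 : (urep G d).toHomUnits (a * b * a⁻¹ * b⁻¹) = 1 := by
    have h4 := congrArg Subtype.val h2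
    have h5 : (urep G d).toHomUnits a * (urep G d).toHomUnits b =
      (urep G d).toHomUnits b * (urep G d).toHomUnits a := h4
    rw [map_mul, map_mul, map_mul, map_inv, map_inv, h5]
    group
  have h6 := ker_universal d h3 R ρ
  rw [map_mul, map_mul, map_mul, map_inv, map_inv, mul_inv_eq_one, mul_inv_eq_iff_eq_mul] at h6
  exact h6

end Vale.Agent.P284.H142
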