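import Vale.Agent.P284.H142.Free

/-! Residually unipotent groups and free groups (helper142). -/

set_option autoImplicit false

namespace Vale.Agent.P284.H142

open Function

universe u v

/-- the augmentation -/
noncomputable def aug (N : Type u) [Group N] : MonoidAlgebra ℚ N →ₐ[ℚ] ℚ :=
  MonoidAlgebra.lift ℚ ℚ N (1 : N →* ℚ)

theorem mem_augI {N : Type u} [Group N] {x : MonoidAlgebra ℚ N} : x ∈ augI N ↔ aug N x = 0 :=
  Iff.rfl

theorem aug_of {N : Type u} [Group N] (g : N) : aug N (MonoidAlgebra.of ℚ N g) = 1 := by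
  unfold aug
  rw [MonoidAlgebra.lift_of]
  rfl

theorem ResNil.of_injective {N : Type u} {N' : Type v} [Group N] [Group N'] (f : N →* N')
    (hf : Injective f) (h : ResNil N') : ResNil N := by
  let F : MonoidAlgebra ℚ N →ₐ[ℚ] MonoidAlgebra ℚ N' :=
    MonoidAlgebra.lift ℚ _ N ((MonoidAlgebra.of ℚ N').comp f)
  have hF : ∀ g, F (el g) = el (f g) := by
    intro g
    change MonoidAlgebra.lift ℚ _ N ((MonoidAlgebra.of ℚ N').comp f) (MonoidAlgebra.of ℚ N g) = _
    rw [MonoidAlgebra.lift_of]
    rfl
  have h1 : ∀ x, aug N' (F x) = aug N x := by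
    intro x
    induction x using MonoidAlgebra.induction_on with
    | of g =>
      have h2 := hF g
      unfold el at h2
      rw [h2, aug_of, aug_of]
    | add a b ha hb => rw [map_add, map_add, map_add, ha, hb]
    | smul c a ha => rw [map_smul, map_smul, map_smul, ha]
  have h2 : ∀ k : ℕ, ∀ x ∈ augI N ^ (k + 1), F x ∈ augI N' ^ (k + 1) := by
    intro k
    induction k with
    | zero =>
      intro x hx
      rw [zero_add, pow_one] at hx ⊢
      rw [mem_augI] at hx ⊢
      rw [h1, hx]
    | succ k ih =>
      intro x hx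
      rw [pow_succ] at hx ⊢
      induction hx using Submodule.mul_induction_on' with
      | mem_mul_mem a ha b hb =>
        rw [map_mul]
        refine Submodule.mul_mem_mul (ih a ha) ?_
        rw [mem_augI] at hb ⊢
        rw [h1, hb]
      | add x _ y _ hx hy =>
        rw [map_add]
        exact add_mem hx hy
  intro g hg
  apply hf
  rw [map_one]
  apply h
  intro k
  have h3 := h2 k _ (hg k)
  rwa [map_sub, hF, map_one] at h3

section free

variable {ι : Type} [DecidableEq ι]

/-- functions vanishing on all words of length `< m` -/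
def VG (m : ℕ) (v : WV ι) : Prop := ∀ w : List ι, w.length < m → v w = 0

theorem Uhom_keep (i : ι) (n : Multiplicative ℤ) {m : ℕ} {v : WV ι} (hv : VG m v) (w : List ι)
    (hw : w.length ≤ m) : (Uhom i n : Module.End ℚ (WV ι)) v w = v w := by
  rw [Uhom_val]
  cases w with
  | nil => rw [Xop_nil, mul_zero, add_zero]
  | cons a w =>
    rw [Xop_cons]
    split_ifs
    · rw [hv w (by simp at hw; omega), mul_zero, add_zero]
    · rw [mul_zero, add_zero]

theorem lift_keep (g : FreeGroup ι) : ∀ (m : ℕ) (v : WV ι), VG m v → ∀ w : List ι,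
    w.length ≤ m →
      (FreeGroup.lift (Ugen : ι → (Module.End ℚ (WV ι))ˣ) g : Module.End ℚ (WV ι)) v w = v w := by
  induction g using FreeGroup.induction_on with
  | C1 =>
    intro m v _ w _
    rw [map_one]
    rfl
  | of i =>
    intro m v hv w hw
    rw [FreeGroup.lift_apply_of]
    exact Uhom_keep i _ hv w hw
  | inv_of i _ =>
    intro m v hv w hw
    rw [map_inv, FreeGroup.lift_apply_of]
    have h1 : (Ugen i)⁻¹ = Uhom i (Multiplicative.ofAdd (-1)) := by
      rw [← Ugen_zpow]
      simp
    rw [h1]
    exact Uhom_keep i _ hv w hw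
  | mul x y hx hy =>
    intro m v hv w hw
    rw [map_mul, Units.val_mul, Module.End.mul_apply]
    have h1 : VG m ((FreeGroup.lift (Ugen : ι → (Module.End ℚ (WV ι))ˣ) y :
        Module.End ℚ (WV ι)) v) := by
      intro w' hw'
      rw [hy m v hv w' hw'.le, hv w' hw']
    rw [hx m _ h1 w hw, hy m v hv w hw]

/-- the representation of the group algebra -/
noncomputable def th (ι : Type) [DecidableEq ι] :
    MonoidAlgebra ℚ (FreeGroup ι) →ₐ[ℚ] Module.End ℚ (WV ι) :=
  MonoidAlgebra.lift ℚ _ (FreeGroup ι)
    ((Units.coeHom _).comp (FreeGroup.lift (Ugen : ι → (Module.End ℚ (WV ι))ˣ)))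

theorem th_of (g : FreeGroup ι) : th ι (MonoidAlgebra.of ℚ _ g) =
    (FreeGroup.lift (Ugen : ι → (Module.End ℚ (WV ι))ˣ) g : Module.End ℚ (WV ι)) := by
  unfold th
  rw [MonoidAlgebra.lift_of]
  rfl

theorem th_keep (x : MonoidAlgebra ℚ (FreeGroup ι)) {m : ℕ} {v : WV ι} (hv : VG m v)
    (w : List ι) (hw : w.length ≤ m) : th ι x v w = aug _ x * v w := by
  induction x using MonoidAlgebra.induction_on with
  | of g => rw [th_of, aug_of, one_mul, lift_keep g m v hv w hw]
  | add a b ha hb =>
    rw [map_add, map_add, LinearMap.add_apply, Pi.add_apply, ha, hb, add_mul]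
  | smul c a ha =>
    rw [map_smul, map_smul, LinearMap.smul_apply, Pi.smul_apply, ha, smul_eq_mul, smul_eq_mul,
      mul_assoc]

theorem th_pow (k : ℕ) : ∀ x ∈ augI (FreeGroup ι) ^ (k + 1), ∀ (m : ℕ) (v : WV ι), VG m v →
    VG (m + k + 1) (th ι x v) := by
  induction k with
  | zero =>
    intro x hx m v hv w hw
    rw [zero_add, pow_one, mem_augI] at hx
    rw [th_keep x hv w (by omega), hx, zero_mul]
  | succ k ih =>
    intro x hx
    rw [pow_succ] at hx
    induction hx using Submodule.mul_induction_on' with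
    | mem_mul_mem a ha b hb =>
      intro m v hv
      rw [map_mul, Module.End.mul_apply]
      have h1 : VG (m + 1) (th ι b v) := by
        intro w hw
        rw [mem_augI] at hb
        rw [th_keep b hv w (by omega), hb, zero_mul]
      have h2 := ih a ha (m + 1) _ h1
      have h3 : m + 1 + k + 1 = m + (k + 1) + 1 := by omega
      rw [h3] at h2
      exact h2
    | add x _ y _ hx hy =>
      intro m v hv w hw
      rw [map_add, LinearMap.add_apply, Pi.add_apply, hx m v hv w hw, hy m v hv w hw, add_zero]

theorem resNil_free_nontrivial [Nontrivial ι] : ResNil (FreeGroup ι) := by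
  intro g hg
  apply Ulift_injective (ι := ι)
  rw [map_one]
  ext v w
  have h1 := th_pow w.length _ (hg w.length) 0 v (fun w' hw' => absurd hw' (Nat.not_lt_zero _)) w
    (by omega)
  have h2 : th ι (el g - 1) v w =
      (FreeGroup.lift (Ugen : ι → (Module.End ℚ (WV ι))ˣ) g : Module.End ℚ (WV ι)) v w - v w := by
    rw [map_sub, map_one]
    change (th ι (MonoidAlgebra.of ℚ _ g) - 1) v w = _
    rw [th_of]
    rfl
  rw [h2] at h1
  exact sub_eq_zero.1 h1

end free

theorem resNil_free (ι : Type) : ResNil (FreeGroup ι) := by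
  classical
  have : Nontrivial (ι ⊕ Bool) := ⟨Sum.inr true, Sum.inr false, by simp⟩
  exact (resNil_free_nontrivial (ι := ι ⊕ Bool)).of_injective (FreeGroup.map Sum.inl)
    (FreeGroup.map_injective Sum.inl_injective)

/-- `N` is residually unipotent: every element other than `1` acts nontrivially in some
representation of `N` by upper unitriangular complex matrices. By theorems of Malcev and Jennings
this means that `N` is residually torsion-free nilpotent. -/
def ResUnip (N : Type u) [Group N] : Prop :=
  ∀ g : N, g ≠ 1 → ∃ (d : ℕ) (ρ : N →* Matrix.GeneralLinearGroup (Fin d) ℂ),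
    (∀ (x : N) (i j : Fin d), j ≤ i →
      (ρ x : Matrix (Fin d) (Fin d) ℂ) i j = if i = j then 1 else 0) ∧ ρ g ≠ 1

theorem ResUnip.resNil {N : Type u} [Group N] (h : ResUnip N) : ResNil N := by
  intro g hg
  by_contra hne
  obtain ⟨d, ρ, hρ, hρg⟩ := h g hne
  let θ : MonoidAlgebra ℚ N →ₐ[ℚ] Matrix (Fin d) (Fin d) ℂ :=
    MonoidAlgebra.lift ℚ _ N ((Units.coeHom _).comp ρ)
  have hof : ∀ x, θ (MonoidAlgebra.of ℚ N x) = (ρ x : Matrix (Fin d) (Fin d) ℂ) := by
    intro x
    change MonoidAlgebra.lift ℚ _ N ((Units.coeHom _).comp ρ) (MonoidAlgebra.of ℚ N x) = _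
    rw [MonoidAlgebra.lift_of]
    rfl
  have h1 : ∀ (x : MonoidAlgebra ℚ N) (i j : Fin d), j ≤ i →
      θ x i j = ((aug N x : ℚ) : ℂ) * if i = j then 1 else 0 := by
    intro x i j hij
    induction x using MonoidAlgebra.induction_on with
    | of g => rw [hof, aug_of, hρ g i j hij, Rat.cast_one, one_mul]
    | add a b ha hb =>
      rw [map_add, map_add, Matrix.add_apply, ha, hb]
      push_cast
      ring
    | smul c a ha =>
      rw [map_smul, map_smul, Matrix.smul_apply, ha, smul_eq_mul, Rat.smul_def]
      push_cast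
      ring
  have h2 : ∀ k : ℕ, ∀ x ∈ augI N ^ (k + 1), ∀ i j : Fin d, (j : ℕ) < i + k + 1 →
      θ x i j = 0 := by
    intro k
    induction k with
    | zero =>
      intro x hx i j hij
      rw [zero_add, pow_one, mem_augI] at hx
      rw [h1 x i j (by rw [Fin.le_def]; omega), hx]
      simp
    | succ k ih =>
      intro x hx
      rw [pow_succ] at hx
      induction hx using Submodule.mul_induction_on' with
      | mem_mul_mem a ha b hb =>
        intro i j hij
        rw [map_mul, Matrix.mul_apply]
        refine Finset.sum_eq_zero fun l _ => ?_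
        by_cases hl : (l : ℕ) < i + k + 1
        · rw [ih a ha i l hl, zero_mul]
        · rw [mem_augI] at hb
          rw [h1 b l j (by rw [Fin.le_def]; omega), hb]
          simp
      | add x _ y _ hx hy =>
        intro i j hij
        rw [map_add, Matrix.add_apply, hx i j hij, hy i j hij, add_zero]
  apply hρg
  ext i j
  have h3 := h2 d _ (hg d) i j (by have := j.2; omega)
  rw [map_sub, map_one] at h3
  change (θ (MonoidAlgebra.of ℚ N g) - 1) i j = 0 at h3
  rw [hof, Matrix.sub_apply] at h3
  exact sub_eq_zero.1 h3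

open Vale.Agent.P284.H593

theorem LocVirtInd.of_injective {Q Q' : Type u} [Group Q] [Group Q'] (f : Q →* Q')
    (hf : Injective f) (h : LocVirtInd Q') : LocVirtInd Q := by
  intro K hK hinf
  let i : K ≃* K.map f := Subgroup.equivMapOfInjective K f hf
  have hKfg : Group.FG K := (Group.fg_iff_subgroup_fg _).2 hK
  have hfg : Group.FG (K.map f) := Group.fg_of_surjective (f := i.toMonoidHom) i.surjective
  have hinf' : Infinite (K.map f) := Infinite.of_injective i i.injective
  exact (h _ ((Group.fg_iff_subgroup_fg _).1 hfg) hinf').of_surjective i.toMonoidHom i.surjective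

/-- subgroups of tame groups are tame -/
theorem Tame.of_injective {Q Q' : Type u} [Group Q] [Group Q'] (f : Q →* Q')
    (hf : Injective f) (h : Tame Q') : Tame Q := by
  obtain ⟨d, ρ, hρ⟩ := h
  refine ⟨d, ρ.comp f, ?_⟩
  let i : (ρ.comp f).ker →* ρ.ker :=
    (f.comp (ρ.comp f).ker.subtype).codRestrict ρ.ker (fun x => x.2)
  refine LocVirtInd.of_injective i ?_ hρ
  intro a b hab
  exact Subtype.ext (hf (congrArg Subtype.val hab))

theorem tame_mulAut_resUnip {N : Type u} [Group N] [Group.FG N] (hN : ResUnip N) :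
    Tame (MulAut N) := tame_mulAut hN.resNil

theorem tame_mulAut_free (n : ℕ) : Tame (MulAut (FreeGroup (Fin n))) :=
  tame_mulAut (resNil_free (Fin n))

end Vale.Agent.P284.H142
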