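import Vale.Agent.P284.H142.Defs
import Vale.Agent.P284.H142.Unif
import Vale.Agent.P284.H142.Loc
import Vale.Agent.P284.H422.Nilp
import Vale.Agent.P284.H673.Virt
import Vale.Agent.P284.H673.Circle
import Vale.Agent.P284.H673.BiOrd
import Vale.Agent.P284.H673.Tame
import Vale.Agent.P284.H673.Emb

/-! Assembly (helper142). -/

set_option autoImplicit false

namespace Vale.Agent.P284.H142

open Function Vale.Agent.P284.H593 Vale.Agent.P284.H673 Filter Topology

theorem emb : Emb := fun D _ _ _ _ => exists_injective_complex D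

theorem nilp : Nilp := fun n hn _ ρ hρ h1 => locInd_of_congr_one n hn ρ hρ h1

/-- groups which are linear over commutative `ℚ`-algebras are tame -/
theorem tame_of_linear_ring {Q R : Type} [Group Q] [Group.FG Q] [CommRing R] [Algebra ℚ R] {d : ℕ}
    (ρ : Q →* Matrix.GeneralLinearGroup (Fin d) R) (hρ : Injective ρ) : Tame Q := by
  refine Tame.of_injective (urep Q d).toHomUnits.rangeRestrict ?_ (tame_universal emb nilp d)
  rw [injective_iff_map_eq_one]
  intro x hx
  apply (injective_iff_map_eq_one ρ).1 hρ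
  exact ker_universal d (congrArg Subtype.val hx) R ρ

/-- more tame groups -/
theorem tame_list :
    (∀ (Q : Type) [Group Q], (BiOrderable Q ∨ (Amenable Q ∧ VirtLeftOrderable Q) ∨
      (Amenable Q ∧ ∃ F : Q → ℝ ≃o ℝ, CircleAct F)) → Tame Q) ∧
    (∀ (Q R : Type) [Group Q] [CommRing R] [Algebra ℚ R] (d : ℕ)
      (ρ : Q →* Matrix.GeneralLinearGroup (Fin d) R), Group.FG Q → Injective ρ → Tame Q) ∧
    (∀ (Q V : Type) [Group Q] [NormedAddCommGroup V] [NormedSpace ℝ V] [FiniteDimensional ℝ V]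
      (s : Q → V → V), GermAct V s → (∀ g, s g =ᶠ[𝓝 0] id → g = 1) → Tame Q) ∧
    (∀ (N : Type) [Group N], Group.FG N → ResUnipotent N → Tame (MulAut N)) ∧
    (∀ n : ℕ, Tame (MulAut (FreeGroup (Fin n)))) ∧
    (∀ (A : Type) [CommRing A] [IsLocalRing A] [IsNoetherianRing A] [Algebra ℂ A],
      Surjective (algebraMap ℂ (IsLocalRing.ResidueField A)) → Tame (A ≃ₐ[ℂ] A)) ∧
    (∀ (Q : Type) [Group Q] (H : Subgroup Q),
      (Tame Q → Tame H) ∧ (H.FiniteIndex → Tame H → Tame Q)) ∧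
    (∀ (Q P : Type) [Group Q] [Group P],
      (Tame Q → Tame P → Tame (Q × P)) ∧ ∀ f : Q →* P, LocVirtInd f.ker → Tame P → Tame Q) := by
  refine ⟨?_, ?_, ?_, ?_, tame_mulAut_free, ?_, ?_, ?_⟩
  · rintro Q _ (h | ⟨h1, h2⟩ | ⟨h1, F, h2⟩)
    · exact tame_of_locVirtInd (locVirtInd_of_locInd (locInd_of_biOrd h))
    · exact tame_of_locVirtInd (locVirtInd_of_amen h1 h2)
    · have h3 : CircAct F := ⟨h2.1, h2.2.1⟩
      exact tame_of_locVirtInd (h3.locVirtInd h2.2.2 h1)
  · intro Q R _ _ _ d ρ hfg hρ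
    exact tame_of_linear_ring ρ hρ
  · intro Q V _ _ _ _ s h hf
    exact tame_of_germ h hf
  · intro N _ hfg hN
    exact tame_mulAut_resUnip hN
  · intro A _ _ _ _ h
    exact tame_algAut h
  · intro Q _ H
    exact ⟨Tame.of_injective H.subtype H.subtype_injective, tame_of_finiteIndex H⟩
  · intro Q P _ _
    exact ⟨Tame.prod, fun f hk hP => Tame.of_ext f hk hP⟩

variable {G : Type} [Group G]

theorem finite_index_of_map {H : Subgroup G} {Q : Type} [Group Q] (f : G →* Q)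
    (h : Finite ((zKer H).map (f.comp H.subtype))) :
    ((f.comp H.subtype).comp (zKer H).subtype).ker.FiniteIndex := by
  constructor
  rw [Subgroup.index_ker]
  have h1 : ((f.comp H.subtype).comp (zKer H).subtype).range = (zKer H).map (f.comp H.subtype) := by
    rw [MonoidHom.range_comp, Subgroup.range_subtype]
  rw [h1]
  exact Nat.card_pos.ne'

theorem uniform_ker [Group.FG G] (H : Subgroup G)
    (h : ∀ (Q : Type) [Group Q] (f : G →* Q), Tame Q →
        Finite ((zKer H).map (f.comp H.subtype))) (d : ℕ) :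
    ∃ L : Subgroup (zKer H), L.FiniteIndex ∧ ∀ (R : Type) [CommRing R] [Algebra ℚ R]
      (ρ : G →* Matrix.GeneralLinearGroup (Fin d) R), ∀ k ∈ L, ρ (k : H) = 1 := by
  refine ⟨_, finite_index_of_map (urep G d).toHomUnits.rangeRestrict
    (h _ _ (tame_universal emb nilp d)), ?_⟩
  intro R _ _ ρ x hx
  refine ker_universal d ?_ R ρ
  exact congrArg Subtype.val (show (urep G d).toHomUnits.rangeRestrict ((x : H) : G) = 1 from hx)

/-- **Main theorem** for restricted groups. -/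
theorem main {N : ℕ} (h : Restricted G N) :
    (criteria G).TFAE ∧
    (∀ (Q : Type) [Group Q] (f : G →* Q), Surjective f →
      ([Tame Q, LocVirtInd Q, VirtZLe Q N] ++ criteria Q).TFAE) ∧
    (∀ (H : Subgroup G) (Q : Type) [Group Q] (f : H →* Q), H.FiniteIndex → Tame Q →
      VirtZLe f.range N) ∧
    (∀ d : ℕ, ∃ H : Subgroup G, H.FiniteIndex ∧ ∀ (R : Type) [CommRing R] [Algebra ℚ R]
      (ρ : G →* Matrix.GeneralLinearGroup (Fin d) R), ∀ a ∈ H, ∀ b ∈ H, ρ a * ρ b = ρ b * ρ a) ∧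
    (∃ H : Subgroup G, H.FiniteIndex ∧ (zKer H).FG ∧ (VirtAb G ↔ Finite (zKer H)) ∧
      (∀ (Q : Type) [Group Q] (f : G →* Q), Tame Q →
        Finite ((zKer H).map (f.comp H.subtype))) ∧
      ¬ VirtInd (zKer H) ∧ ¬ Periodic (zKer H) ∧
      (∀ (Q : Type) [Group Q] (f : zKer H →* Q), LocVirtInd Q → Finite f.range) ∧
      (∀ L : Subgroup H, L.FiniteIndex → zKer L = (zKer H).subgroupOf L) ∧
      ∀ d : ℕ, ∃ L : Subgroup (zKer H), L.FiniteIndex ∧
        ∀ (R : Type) [CommRing R] [Algebra ℚ R] (ρ : G →* Matrix.GeneralLinearGroup (Fin d) R),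
          ∀ k ∈ L, ρ (k : H) = 1) ∧
    (∀ (Q : Type) [Group Q], (ElemAmen Q ∨ LocInd Q ∨ LocVirtInd Q ∨
      ∃ (d : ℕ) (ρ : Q →* Matrix.GeneralLinearGroup (Fin d) ℂ), Injective ρ) → Tame Q) := by
  have h0 := group_main h
  have hfg : Group.FG G := (exists_max N (fun H hH k f hf =>
    (h.1 H hH).1 k (fun x => Multiplicative.toAdd (f x)) (fun x y i => by rw [map_mul]; rfl) hf)
    (fun H hH => (h.1 H hH).2) h.2).1
  refine ⟨h0.1, h0.2.1, ?_, uniform emb nilp h, ?_, h0.2.2.2⟩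
  · intro H Q _ f hH hQ
    exact range_virtZ h H hH hQ f
  · obtain ⟨H, h1, h2, h3, h4, h5, h6, h7, h8⟩ := struct h
    exact ⟨H, h1, h2, h3, h4, h5, h6, h7, h8, uniform_ker H h4⟩

end Vale.Agent.P284.H142
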