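import Vale.Agent.P284.H142.Joh
import Mathlib.GroupTheory.CoprodI

/-! Free groups: the rational dimension subgroups intersect trivially (helper142). -/

set_option autoImplicit false

namespace Vale.Agent.P284.H142

open Function

universe u

section

variable {ι : Type} [DecidableEq ι]

/-- functions on words -/
abbrev WV (ι : Type) := List ι → ℚ

/-- prefix the letter `i`, unless the word starts with `i` -/
noncomputable def Xop (i : ι) : WV ι →ₗ[ℚ] WV ι where
  toFun v := fun w => match w with
    | [] => 0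
    | a :: w' => if a = i ∧ w'.head? ≠ some i then v w' else 0
  map_add' v v' := by
    funext w
    cases w with
    | nil => simp
    | cons a w' =>
      simp only [Pi.add_apply]
      split_ifs <;> simp
  map_smul' c v := by
    funext w
    cases w with
    | nil => simp
    | cons a w' =>
      simp only [Pi.smul_apply, RingHom.id_apply]
      split_ifs <;> simp

theorem Xop_nil (i : ι) (v : WV ι) : Xop i v [] = 0 := rfl

theorem Xop_cons (i a : ι) (w : List ι) (v : WV ι) :
    Xop i v (a :: w) = if a = i ∧ w.head? ≠ some i then v w else 0 := rfl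

theorem Xop_sq (i : ι) : Xop i * Xop i = 0 := by
  ext v w
  change Xop i (Xop i v) w = 0
  cases w with
  | nil => rfl
  | cons a w =>
    rw [Xop_cons]
    split_ifs with h
    · cases w with
      | nil => rfl
      | cons b w =>
        rw [Xop_cons]
        rw [if_neg]
        rintro ⟨h1, _⟩
        apply h.2
        rw [h1]
        rfl
    · rfl

/-- `n ↦ 1 + n Xᵢ` -/
noncomputable def Uhom (i : ι) : Multiplicative ℤ →* (Module.End ℚ (WV ι))ˣ where
  toFun n :=
    { val := 1 + (Multiplicative.toAdd n : ℤ) • Xop i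
      inv := 1 - (Multiplicative.toAdd n : ℤ) • Xop i
      val_inv := by
        rw [add_mul, mul_sub, mul_sub, one_mul, mul_one, one_mul, smul_mul_smul_comm, Xop_sq,
          smul_zero]
        abel
      inv_val := by
        rw [sub_mul, mul_add, mul_add, one_mul, mul_one, one_mul, smul_mul_smul_comm, Xop_sq,
          smul_zero]
        abel }
  map_one' := by
    ext1
    simp
  map_mul' m n := by
    ext1
    change 1 + (Multiplicative.toAdd (m * n) : ℤ) • Xop i =
      (1 + (Multiplicative.toAdd m : ℤ) • Xop i) * (1 + (Multiplicative.toAdd n : ℤ) • Xop i)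
    rw [add_mul, mul_add, mul_add, one_mul, mul_one, one_mul, smul_mul_smul_comm, Xop_sq,
      smul_zero, toAdd_mul, add_smul]
    abel

theorem Uhom_val (i : ι) (n : Multiplicative ℤ) (v : WV ι) (w : List ι) :
    (Uhom i n : Module.End ℚ (WV ι)) v w = v w + (Multiplicative.toAdd n : ℤ) * Xop i v w := by
  change (1 + (Multiplicative.toAdd n : ℤ) • Xop i : Module.End ℚ (WV ι)) v w = _
  simp

/-- the generator `xᵢ` acts as `1 + Xᵢ` -/
noncomputable def Ugen (i : ι) : (Module.End ℚ (WV ι))ˣ := Uhom i (Multiplicative.ofAdd 1)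

theorem Ugen_zpow (i : ι) (n : ℤ) : Ugen i ^ n = Uhom i (Multiplicative.ofAdd n) := by
  rw [Ugen, ← map_zpow]
  congr 1
  rw [← ofAdd_zsmul]
  simp

/-- the ping-pong sets: functions of bounded degree whose top degree words all start with `i` -/
def PP (i : ι) : Set (WV ι) :=
  {v | ∃ m : ℕ, (∃ w : List ι, w.length = m ∧ v w ≠ 0) ∧ (∀ w : List ι, v w ≠ 0 → w.length ≤ m) ∧
    ∀ w : List ι, w.length = m → v w ≠ 0 → w.head? = some i}

theorem PP_nonempty (i : ι) : (PP i).Nonempty := by
  refine ⟨fun w => if w = [i] then 1 else 0, 1, ⟨[i], rfl, by simp⟩, ?_, ?_⟩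
  · intro w hw
    by_cases h : w = [i]
    · rw [h]; simp
    · simp [h] at hw
  · intro w _ hw
    by_cases h : w = [i]
    · rw [h]; rfl
    · simp [h] at hw

theorem PP_disj : Pairwise (Disjoint on (PP : ι → Set (WV ι))) := by
  intro i j hij
  rw [Function.onFun, Set.disjoint_left]
  rintro v ⟨m, ⟨w, hw, hv⟩, h1, h2⟩ ⟨m', ⟨w', hw', hv'⟩, h1', h2'⟩
  have hmm : m = m' := by
    have e1 := h1 w' hv'
    have e2 := h1' w hv
    omega
  subst hmm
  have e3 := h2 w hw hv
  have e4 := h2' w hw hv
  rw [e3] at e4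
  exact hij (Option.some.inj e4)

theorem PP_move {i j : ι} (hij : i ≠ j) {n : ℤ} (hn : n ≠ 0) {v : WV ι} (hv : v ∈ PP j) :
    (Uhom i (Multiplicative.ofAdd n) : Module.End ℚ (WV ι)) v ∈ PP i := by
  obtain ⟨m, ⟨w, hw, hvw⟩, h1, h2⟩ := hv
  have hle : ∀ w : List ι, m < w.length → v w = 0 := by
    intro w hw
    by_contra h
    have := h1 w h
    omega
  refine ⟨m + 1, ⟨i :: w, by simp [hw], ?_⟩, ?_, ?_⟩
  · rw [Uhom_val, hle (i :: w) (by simp [hw]), zero_add, Xop_cons, if_pos]
    · exact mul_ne_zero (by exact_mod_cast hn) hvw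
    · refine ⟨rfl, ?_⟩
      rw [h2 w hw hvw]
      intro h
      exact hij (Option.some.inj h).symm
  · intro w' hw'
    by_contra hlen
    push Not at hlen
    apply hw'
    rw [Uhom_val, hle w' (by omega), zero_add]
    cases w' with
    | nil => rw [Xop_nil, mul_zero]
    | cons a w'' =>
      rw [Xop_cons]
      split_ifs
      · rw [hle w'' (by simp at hlen; omega), mul_zero]
      · rw [mul_zero]
  · intro w' hw' hne
    rw [Uhom_val, hle w' (by omega), zero_add] at hne
    cases w' with
    | nil => rw [Xop_nil, mul_zero] at hne; exact absurd rfl hne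
    | cons a w'' =>
      rw [Xop_cons] at hne
      split_ifs at hne with h
      · rw [h.1]; rfl
      · rw [mul_zero] at hne; exact absurd rfl hne

open scoped Pointwise in
theorem Ulift_injective [Nontrivial ι] :
    Injective (FreeGroup.lift (Ugen : ι → (Module.End ℚ (WV ι))ˣ)) := by
  have h0 : FreeGroup.lift (Ugen : ι → (Module.End ℚ (WV ι))ˣ) =
      (Monoid.CoprodI.lift fun i => FreeGroup.lift fun _ => Ugen i).comp
        (@freeGroupEquivCoprodI ι).toMonoidHom := by
    ext i
    simp
  rw [h0, MonoidHom.coe_comp]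
  refine Function.Injective.comp ?_ (MulEquiv.injective freeGroupEquivCoprodI)
  change Function.Injective (Monoid.CoprodI.lift fun i : ι => FreeGroup.lift fun _ => Ugen i)
  let H : ι → Type _ := fun _i => FreeGroup Unit
  let f : ∀ i, H i →* (Module.End ℚ (WV ι))ˣ := fun i => FreeGroup.lift fun _ => Ugen i
  apply Monoid.CoprodI.lift_injective_of_ping_pong f _ PP
  · exact PP_nonempty
  · exact PP_disj
  · change Pairwise fun i j => ∀ h : H i, h ≠ 1 → f i h • PP j ⊆ PP i
    rintro i j hij
    refine FreeGroup.freeGroupUnitEquivInt.forall_congr_left.mpr ?_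
    intro n hne1
    change FreeGroup.lift (fun _ => Ugen i) (FreeGroup.of () ^ n) • PP j ⊆ PP i
    simp only [map_zpow, FreeGroup.lift_apply_of]
    have hnne0 : n ≠ 0 := by
      rintro rfl
      apply hne1
      simp [H, FreeGroup.freeGroupUnitEquivInt]
    rintro _ ⟨v, hv, rfl⟩
    rw [Ugen_zpow]
    exact PP_move hij hnne0 hv
  · change _ ∨ ∃ i, 3 ≤ Cardinal.mk (H i)
    obtain ⟨i₀⟩ : Nonempty ι := inferInstance
    refine Or.inr ⟨i₀, ?_⟩
    simp only [H]
    rw [FreeGroup.freeGroupUnitEquivInt.cardinal_eq, Cardinal.mk_denumerable]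
    apply le_of_lt
    exact Cardinal.natCast_lt_aleph0 (n := 3)

end

end Vale.Agent.P284.H142
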