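import Vale.Agent.P284.H142.Uni

/-! `GL_d (U)` is tame for countable Noetherian `ℚ`-algebras `U` (helper142). -/

set_option autoImplicit false

namespace Vale.Agent.P284.H142

open Function Vale.Agent.P284.H593

/-- finitely many complex representations are contained in one -/
theorem exists_rep_finset {Q : Type} [Group Q] {ι : Type} (d : ι → ℕ)
    (ρ : ∀ i, Q →* Matrix.GeneralLinearGroup (Fin (d i)) ℂ) (s : Finset ι) :
    ∃ (m : ℕ) (τ : Q →* Matrix.GeneralLinearGroup (Fin m) ℂ),
      ∀ x, τ x = 1 → ∀ i ∈ s, ρ i x = 1 := by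
  classical
  induction s using Finset.induction_on with
  | empty => exact ⟨0, 1, fun x _ i hi => absurd hi (Finset.notMem_empty i)⟩
  | insert a s _ ih =>
    obtain ⟨m, τ, hτ⟩ := ih
    obtain ⟨τ', hτ'⟩ := exists_sum (ρ a) τ
    refine ⟨_, τ', fun x hx i hi => ?_⟩
    rcases Finset.mem_insert.1 hi with rfl | hi
    · exact (hτ' x hx).1
    · exact hτ x (hτ' x hx).2 i hi

/-- `GL_d (U)` is tame -/
theorem tame_GL {U : Type} [CommRing U] [IsNoetherianRing U] [Algebra ℚ U] [Countable U] (d : ℕ)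
    (hemb : ∀ (D : Type) [CommRing D] [IsDomain D] [CharZero D] [Countable D],
      ∃ φ : D →+* ℂ, Injective φ)
    (hnil : ∀ {Q : Type} [Group Q] {U : Type} [CommRing U] [Algebra ℚ U] (n : Ideal U)
      (_ : IsNilpotent n) {d : ℕ} (ρ : Q →* Matrix (Fin d) (Fin d) U) (_ : Injective ρ)
      (_ : ∀ g i j, ρ g i j - (1 : Matrix (Fin d) (Fin d) U) i j ∈ n), LocInd Q) :
    Tame (Matrix.GeneralLinearGroup (Fin d) U) := by
  classical
  have hfin : (minimalPrimes U).Finite := minimalPrimes.finite_of_isNoetherianRing U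
  have hemb' : ∀ p : minimalPrimes U, ∃ φ : U →+* ℂ, ∀ x, φ x = 0 → x ∈ (p : Ideal U) := by
    intro p
    have hp : (p : Ideal U).IsPrime := Ideal.IsMinimalPrime.isPrime p.2
    have hc : Countable (U ⧸ (p : Ideal U)) :=
      (Ideal.Quotient.mk_surjective (I := (p : Ideal U))).countable
    have h0 : CharZero (U ⧸ (p : Ideal U)) := by
      exact algebraRat.charZero (U ⧸ (p : Ideal U))
    obtain ⟨φ, hφ⟩ := hemb (U ⧸ (p : Ideal U))
    refine ⟨φ.comp (Ideal.Quotient.mk (p : Ideal U)), fun x hx => ?_⟩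
    rw [← Ideal.Quotient.eq_zero_iff_mem]
    apply hφ
    rw [map_zero]
    exact hx
  choose φ hφ using hemb'
  let ρ : ∀ p : minimalPrimes U, Matrix.GeneralLinearGroup (Fin d) U →*
      Matrix.GeneralLinearGroup (Fin d) ℂ := fun p =>
    Units.map (RingHom.mapMatrix (φ p)).toMonoidHom
  have hft : Finite (minimalPrimes U) := hfin
  have := Fintype.ofFinite (minimalPrimes U)
  obtain ⟨m, τ, hτ⟩ := exists_rep_finset (fun _ : minimalPrimes U => d) ρ Finset.univ
  refine ⟨m, τ, locVirtInd_of_locInd ?_⟩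
  refine hnil (nilradical U) (IsNoetherianRing.isNilpotent_nilradical U)
    ((Units.coeHom (Matrix (Fin d) (Fin d) U)).comp τ.ker.subtype) ?_ ?_
  · intro a b hab
    exact Subtype.ext (Units.ext hab)
  · intro g i j
    have h0 : (((Units.coeHom (Matrix (Fin d) (Fin d) U)).comp τ.ker.subtype) g :
        Matrix (Fin d) (Fin d) U) = g.1.val := rfl
    rw [h0]
    have h1 : nilradical U = sInf (minimalPrimes U) := by
      unfold minimalPrimes
      rw [Ideal.sInf_minimalPrimes]
      rfl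
    rw [h1, Submodule.mem_sInf]
    intro p hp
    apply hφ ⟨p, hp⟩
    have h2 := hτ g.1 g.2 ⟨p, hp⟩ (Finset.mem_univ _)
    have h3 : (ρ ⟨p, hp⟩ g.1).val = (1 : Matrix (Fin d) (Fin d) ℂ) := by
      rw [h2]
      rfl
    have h4 : φ ⟨p, hp⟩ (g.1.val i j) = (1 : Matrix (Fin d) (Fin d) ℂ) i j :=
      congrFun (congrFun h3 i) j
    rw [map_sub, h4, Matrix.one_apply, Matrix.one_apply]
    split_ifs
    · rw [map_one, sub_self]
    · rw [map_zero, sub_self]

end Vale.Agent.P284.H142
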