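import Vale.Agent.P284.H142.Aug
import Vale.Agent.P284.Bdl.B1

/-! The kernel of `Aut N → GL (Hom (N, ℂ))` is locally indicable (helper142). -/

set_option autoImplicit false

namespace Vale.Agent.P284.H142

open Function

universe u

variable {N : Type u} [Group N]

theorem mul_mem_aug_right {a b : MonoidAlgebra ℚ N} (ha : a ∈ augI N) : a * b ∈ augI N := by
  unfold augI at *
  rw [LinearMap.mem_ker] at *
  change (MonoidAlgebra.lift ℚ ℚ N (1 : N →* ℚ)) (a * b) = 0
  change (MonoidAlgebra.lift ℚ ℚ N (1 : N →* ℚ)) a = 0 at ha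
  rw [map_mul, ha, zero_mul]

theorem mul_mem_pow_right {a b : MonoidAlgebra ℚ N} {k : ℕ} (hk : 1 ≤ k) (ha : a ∈ augI N ^ k) :
    a * b ∈ augI N ^ k := by
  obtain ⟨j, rfl⟩ : ∃ j, k = j + 1 := ⟨k - 1, by omega⟩
  rw [pow_succ] at ha ⊢
  induction ha using Submodule.mul_induction_on' with
  | mem_mul_mem x hx y hy =>
    rw [mul_assoc]
    exact Submodule.mul_mem_mul hx (mul_mem_aug_right hy)
  | add x _ y _ hx hy =>
    rw [add_mul]
    exact add_mem hx hy

/-- a linear functional separating a vector from a subspace -/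
theorem exists_functional {V : Type u} [AddCommGroup V] [Module ℚ V] (p : Submodule ℚ V) {x : V}
    (hx : x ∉ p) : ∃ l : V →ₗ[ℚ] ℚ, (∀ y ∈ p, l y = 0) ∧ l x ≠ 0 := by
  obtain ⟨l, h1, h2⟩ := Submodule.exists_dual_map_eq_bot_of_notMem (p := p) hx inferInstance
  refine ⟨l, fun y hy => ?_, h1⟩
  have h3 : l y ∈ p.map l := Submodule.mem_map_of_mem hy
  rw [h2] at h3
  simpa using h3

/-- if all homomorphisms `N → ℂ` vanish at `h` then `h - 1 ∈ I²` -/
theorem sub_one_mem_sq (h : N) (hh : ∀ f : Additive N →+ ℂ, f (Additive.ofMul h) = 0) :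
    el h - 1 ∈ augI N ^ 2 := by
  by_contra hcon
  obtain ⟨l, h1, h2⟩ := exists_functional _ hcon
  let f : Additive N →+ ℂ := AddMonoidHom.mk' (fun g => ((l (el g.toMul - 1) : ℚ) : ℂ)) (by
    intro a b
    have e1 : el (a + b).toMul - 1 = (el a.toMul - 1) * (el b.toMul - 1) +
        ((el a.toMul - 1) + (el b.toMul - 1)) := by
      rw [toMul_add, el_mul]
      noncomm_ring
    have e2 : (el a.toMul - 1) * (el b.toMul - 1) ∈ augI N ^ 2 := by
      rw [pow_two]
      refine Submodule.mul_mem_mul ?_ ?_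
      · have := el_sub_mem a.toMul (1 : N)
        rwa [el_one] at this
      · have := el_sub_mem b.toMul (1 : N)
        rwa [el_one] at this
    rw [e1, map_add, h1 _ e2, zero_add, map_add]
    push_cast
    rfl)
  have h3 := hh f
  apply h2
  have h4 : ((l (el h - 1) : ℚ) : ℂ) = 0 := h3
  exact_mod_cast h4

/-- the action of `Aut N` on `Hom (N, ℂ)` -/
noncomputable def homRep (N : Type u) [Group N] : MulAut N →* Module.End ℂ (Additive N →+ ℂ) where
  toFun φ :=
    { toFun := fun f => f.comp (MonoidHom.toAdditive (φ⁻¹ : MulAut N).toMonoidHom)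
      map_add' := fun _ _ => rfl
      map_smul' := fun _ _ => rfl }
  map_one' := by
    ext f x
    simp
  map_mul' φ ψ := by
    ext f x
    simp [mul_inv_rev]

theorem homRep_apply (φ : MulAut N) (f : Additive N →+ ℂ) (x : N) :
    homRep N φ f (Additive.ofMul x) = f (Additive.ofMul (φ⁻¹ x)) := rfl

theorem mem_sq_of_homRep {φ : MulAut N} (h : homRep N φ = 1) (g : N) :
    el (φ g) - el g ∈ augI N ^ 2 := by
  have h1 : ∀ f : Additive N →+ ℂ, f (Additive.ofMul (φ g * g⁻¹)) = 0 := by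
    intro f
    have h2 : f (Additive.ofMul (φ⁻¹ (φ g))) = f (Additive.ofMul (φ g)) := by
      rw [← homRep_apply, h]
      rfl
    have h3 : φ⁻¹ (φ g) = g := by
      simp
    rw [h3] at h2
    rw [ofMul_mul, map_add, ofMul_inv, map_neg, ← h2]
    ring
  have h4 := sub_one_mem_sq _ h1
  have h5 : el (φ g) - el g = (el (φ g * g⁻¹) - 1) * el g := by
    rw [sub_mul, ← el_mul, inv_mul_cancel_right, one_mul]
  rw [h5]
  exact mul_mem_pow_right (by norm_num) h4

/-- the rational dimension subgroups of `N` intersect trivially (equivalently: `N` is residually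
torsion-free nilpotent) -/
def ResNil (N : Type u) [Group N] : Prop :=
  ∀ g : N, (∀ k : ℕ, el g - 1 ∈ augI N ^ (k + 1)) → g = 1

theorem diff_mul (φ ψ : MulAut N) (g : N) {k : ℕ} (h1 : ∀ g, el (φ g) - el g ∈ augI N ^ 2)
    (h2 : el (ψ g) - el g ∈ augI N ^ (k + 1)) {l : MonoidAlgebra ℚ N →ₗ[ℚ] ℚ}
    (hl : ∀ y ∈ augI N ^ (k + 2), l y = 0) :
    l (el ((φ * ψ) g) - el g) = l (el (φ g) - el g) + l (el (ψ g) - el g) := by
  have e1 : el ((φ * ψ) g) - el g =
      (act φ (el (ψ g) - el g) - (el (ψ g) - el g)) + ((el (φ g) - el g) + (el (ψ g) - el g)) := by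
    rw [map_sub, act_el, act_el, MulAut.mul_apply]
    abel
  have e2 : act φ (el (ψ g) - el g) - (el (ψ g) - el g) ∈ augI N ^ (k + 2) :=
    act_sub_mem_pow φ h1 k _ h2
  rw [e1, map_add, hl _ e2, zero_add, map_add]

theorem exists_index (hN : ResNil N) (K : Subgroup (MulAut N))
    (h1 : ∀ φ ∈ K, ∀ g, el (φ g) - el g ∈ augI N ^ 2) (hne : K ≠ ⊥) :
    ∃ k : ℕ, (∃ φ ∈ K, ∃ g, el (φ g) - el g ∉ augI N ^ (k + 2)) ∧
      ∀ φ ∈ K, ∀ g, el (φ g) - el g ∈ augI N ^ (k + 1) := by
  classical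
  -- some power of the augmentation ideal does not contain all differences
  have hex : ∃ k : ℕ, ∃ φ ∈ K, ∃ g, el (φ g) - el g ∉ augI N ^ (k + 2) := by
    by_contra hcon
    push Not at hcon
    obtain ⟨φ, hφ, hφ1⟩ : ∃ φ ∈ K, φ ≠ 1 := by
      by_contra hc
      push Not at hc
      exact hne ((Subgroup.eq_bot_iff_forall K).2 hc)
    have hex2 : ∃ g, φ g ≠ g := by
      by_contra hc
      push Not at hc
      apply hφ1
      ext g
      exact hc g
    obtain ⟨g, hg⟩ := hex2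
    apply hg
    have h2 : φ g * g⁻¹ = 1 := by
      apply hN
      intro k
      have h3 := hcon k φ hφ g
      have h4 : el (φ g * g⁻¹) - 1 = (el (φ g) - el g) * el g⁻¹ := by
        rw [sub_mul, ← el_mul, ← el_mul, mul_inv_cancel, el_one]
      rw [h4]
      exact pow_le_of_le (by omega) (by omega : k + 1 ≤ k + 2)
        (mul_mem_pow_right (b := el g⁻¹) (by omega : 1 ≤ k + 2) h3)
    exact mul_inv_eq_one.1 h2
  obtain ⟨k, hk1, hmin⟩ : ∃ k : ℕ, (∃ φ ∈ K, ∃ g, el (φ g) - el g ∉ augI N ^ (k + 2)) ∧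
      ∀ j < k, ¬ ∃ φ ∈ K, ∃ g, el (φ g) - el g ∉ augI N ^ (j + 2) :=
    ⟨Nat.find hex, Nat.find_spec hex, fun j hj => Nat.find_min hex hj⟩
  refine ⟨k, hk1, ?_⟩
  rcases Nat.eq_zero_or_pos k with h0 | h0
  · subst h0
    intro φ hφ g
    exact pow_le_of_le le_rfl (by omega : 0 + 1 ≤ 2) (h1 φ hφ g)
  · have h3 := hmin (k - 1) (by omega)
    push Not at h3
    have h4 : k - 1 + 2 = k + 1 := by omega
    rw [h4] at h3
    exact h3

theorem exists_surj_int (hN : ResNil N) (K : Subgroup (MulAut N)) (hK : K.FG)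
    (h1 : ∀ φ ∈ K, ∀ g, el (φ g) - el g ∈ augI N ^ 2) (hne : K ≠ ⊥) :
    ∃ f : K →* Multiplicative ℤ, Surjective f := by
  have hKfg : Group.FG K := (Group.fg_iff_subgroup_fg _).2 hK
  obtain ⟨k, ⟨φ₀, hφ₀, g, hg⟩, hk2⟩ := exists_index hN K h1 hne
  obtain ⟨l, hl1, hl2⟩ := exists_functional _ hg
  let F : K →* Multiplicative ℝ := MonoidHom.mk'
    (fun φ => Multiplicative.ofAdd (((l (el (φ.1 g) - el g) : ℚ)) : ℝ)) (by
    intro φ ψ
    have h3 := diff_mul φ.1 ψ.1 g (h1 φ.1 φ.2) (hk2 ψ.1 ψ.2 g) hl1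
    rw [← ofAdd_add, ← Rat.cast_add, ← h3]
    rfl)
  refine WM.exists_int_hom F (z := ⟨φ₀, hφ₀⟩) ?_
  intro h
  apply hl2
  have h3 : (((l (el (φ₀ g) - el g) : ℚ)) : ℝ) = 0 := h
  exact_mod_cast h3

open Vale.Agent.P284.H593 in
/-- **Automorphism groups**: for finitely generated residually torsion-free nilpotent `N`, the
kernel of `Aut N → GL (Hom (N, ℂ))` is locally indicable, so `Aut N` is tame. -/
theorem tame_mulAut [Group.FG N] (hN : ResNil N) : Tame (MulAut N) := by
  classical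
  have hfd : FiniteDimensional ℂ (Additive N →+ ℂ) := fd_hom inferInstance
  set b := Module.finBasis ℂ (Additive N →+ ℂ)
  let e : Module.End ℂ (Additive N →+ ℂ) ≃ₐ[ℂ] Matrix
      (Fin (Module.finrank ℂ (Additive N →+ ℂ))) (Fin (Module.finrank ℂ (Additive N →+ ℂ))) ℂ :=
    LinearMap.toMatrixAlgEquiv b
  let σ : MulAut N →* Matrix.GeneralLinearGroup (Fin (Module.finrank ℂ (Additive N →+ ℂ))) ℂ :=
    (Units.map (e : Module.End ℂ (Additive N →+ ℂ) →* _)).comp (homRep N).toHomUnits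
  refine ⟨_, σ, ?_⟩
  intro K hK hinf
  have hker : ∀ φ : MulAut N, φ ∈ σ.ker → homRep N φ = 1 := by
    intro φ hφ
    have h1 : σ φ = 1 := hφ
    have h2 : e (homRep N φ) = 1 := congrArg Units.val h1
    apply e.injective
    rw [h2, map_one]
  let i : K ≃* K.map σ.ker.subtype :=
    Subgroup.equivMapOfInjective K σ.ker.subtype σ.ker.subtype_injective
  have hKfg : Group.FG K := (Group.fg_iff_subgroup_fg _).2 hK
  have hfg : Group.FG (K.map σ.ker.subtype) :=
    Group.fg_of_surjective (f := i.toMonoidHom) i.surjective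
  have hinf' : Infinite (K.map σ.ker.subtype) := Infinite.of_injective i i.injective
  obtain ⟨f, hf⟩ := exists_surj_int hN (K.map σ.ker.subtype)
    ((Group.fg_iff_subgroup_fg _).1 hfg) (by
      rintro φ ⟨ψ, _, rfl⟩ g
      exact mem_sq_of_homRep (hker _ ψ.2) g) (by
      intro hbot
      rw [hbot] at hinf'
      exact not_finite (⊥ : Subgroup (MulAut N)))
  have h3 : VirtInd (K.map σ.ker.subtype) :=
    ⟨⊤, inferInstance, f.comp Subgroup.topEquiv.toMonoidHom, by
      intro z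
      obtain ⟨x, hx⟩ := hf z
      exact ⟨⟨x, trivial⟩, hx⟩⟩
  exact h3.of_surjective i.toMonoidHom i.surjective

end Vale.Agent.P284.H142
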