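import Vale.Agent.P284.H593.Final
import Vale.Agent.P284.H142.Ext

/-! The structure of restricted groups: the kernel of the maximal cover (helper142). -/

set_option autoImplicit false

namespace Vale.Agent.P284.H142

open Function Vale.Agent.P284.H593

universe u

theorem infinite_of_virtInd {K : Type u} [Group K] (h : VirtInd K) : Infinite K := by
  obtain ⟨H, -, f, hf⟩ := h
  have : Infinite H := Infinite.of_surjective f hf
  exact Infinite.of_injective _ H.subtype_injective

theorem zKer_normal (H : Type u) [Group H] : (zKer H).Normal := by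
  refine ⟨fun x hx g => ?_⟩
  rw [mem_zKer] at hx ⊢
  intro f
  rw [map_mul, map_mul, hx f, map_inv, mul_one, mul_inv_cancel]

/-- a periodic representation of a finitely generated kernel makes it virtually indicable -/
theorem virtInd_of_periodic' {H : Type u} [Group H] (hfg : (zKer H).FG) (hlin : LinVirtAb H)
    (h : Periodic (zKer H)) : VirtInd (zKer H) := by
  obtain ⟨d, σ, hσm, hσi, H', hH', hper⟩ := h
  have hn := zKer_normal H
  have hσ1 : σ 1 = 1 := by
    have := hσm 1 (one_mem _) 1 (one_mem _)
    rw [one_mul] at this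
    exact left_eq_mul.mp this
  let τ : zKer H →* Matrix.GeneralLinearGroup (Fin d) ℂ :=
    { toFun := fun k => σ k
      map_one' := hσ1
      map_mul' := fun x y => hσm x x.2 y y.2 }
  refine virtInd_of_periodic (zKer H) hfg hlin d τ ?_ H' hH' ?_
  · by_contra hcon
    have hf : Finite τ.range := not_infinite_iff_finite.mp hcon
    apply hσi
    apply Set.Finite.subset (s := (τ.range : Set (Matrix.GeneralLinearGroup (Fin d) ℂ))) hf
    rintro _ ⟨k, hk, rfl⟩
    exact ⟨⟨k, hk⟩, rfl⟩
  · intro x hx
    obtain ⟨P, hP⟩ := hper x hx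
    refine ⟨P, fun k l hl => ?_⟩
    have := hP k k.2
    rw [← hl] at this
    exact this

/-- a finitely generated group which is not virtually indicable has finite image in every locally
virtually indicable group -/
theorem finite_range_of_not_virtInd {K : Type u} [Group K] [Group.FG K] (hK : ¬ VirtInd K)
    {Q : Type u} [Group Q] (f : K →* Q) (hQ : LocVirtInd Q) : Finite f.range := by
  by_contra hcon
  have hfg : Group.FG f.range := Group.fg_range f
  exact hK ((hQ f.range ((Group.fg_iff_subgroup_fg _).1 hfg)
    (not_finite_iff_infinite.1 hcon)).of_surjective f.rangeRestrict f.rangeRestrict_surjective)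

/-- **Structure**: the kernel `zKer H` of the maximal cover. -/
theorem struct {G : Type u} [Group G] {N : ℕ} (h : Restricted G N) :
    ∃ H : Subgroup G, H.FiniteIndex ∧ (zKer H).FG ∧ (VirtAb G ↔ Finite (zKer H)) ∧
      (∀ (Q : Type u) [Group Q] (f : G →* Q), Tame Q →
        Finite ((zKer H).map (f.comp H.subtype))) ∧
      ¬ VirtInd (zKer H) ∧ ¬ Periodic (zKer H) ∧
      (∀ (Q : Type u) [Group Q] (f : zKer H →* Q), LocVirtInd Q → Finite f.range) ∧
      ∀ L : Subgroup H, L.FiniteIndex → zKer L = (zKer H).subgroupOf L := by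
  have hb : ∀ H : Subgroup G, H.FiniteIndex → ∀ (k : ℕ) (f : H →* Multiplicative (Fin k → ℤ)),
      Surjective f → k ≤ N := fun H hH k f hf =>
    (h.1 H hH).1 k (fun x => Multiplicative.toAdd (f x)) (fun x y i => by rw [map_mul]; rfl) hf
  obtain ⟨hG, H, hH, hHfg, hmax, hmain⟩ := exists_max N hb (fun H hH => (h.1 H hH).2) h.2
  have hK : (zKer H).FG := (h.1 H hH).2
  have hKfg : Group.FG (zKer H) := (Group.fg_iff_subgroup_fg _).2 hK
  have hnot : ¬ VirtInd (zKer H) := by
    intro hv
    have h1 := infinite_of_virtInd hv
    have h2 := hmain fun _ => hv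
    exact not_finite (zKer H)
  refine ⟨H, hH, hK, ⟨?_, ?_⟩, ?_, hnot, ?_, ?_, ?_⟩
  · intro hv
    have h1 := finite_map_of_virtAb H hmax hG (MonoidHom.id G) surjective_id hv
    have h2 : Injective ((MonoidHom.id G).comp H.subtype) := H.subtype_injective
    exact Finite.of_injective _
      ((zKer H).equivMapOfInjective ((MonoidHom.id G).comp H.subtype) h2).injective
  · intro hfin
    exact VirtAb.of_finiteIndex H hH (virtAb_of_finite_zKer hHfg hfin)
  · exact fun Q _ f hQ => finite_map_of_tame H hmax hG hK h.2 hmain f hQ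
  · exact fun hp => hnot (virtInd_of_periodic' hK (h.2.subgroup H hH) hp)
  · exact fun Q _ f hQ => finite_range_of_not_virtInd hnot f hQ
  · intro L hL
    ext x
    rw [Subgroup.mem_subgroupOf]
    constructor
    · intro hx
      rw [mem_zKer] at hx ⊢
      exact fun f => hx (f.comp L.subtype)
    · intro hx
      rw [mem_zKer]
      exact fun ψ => hmax L hL ψ x hx

theorem zKer_fg_of_equiv {H H' : Type u} [Group H] [Group H'] (e : H ≃* H')
    (h : (zKer H').FG) : (zKer H).FG := by
  have h1 : (zKer H').map e.symm.toMonoidHom = zKer H := by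
    ext x
    constructor
    · rintro ⟨y, hy, rfl⟩
      rw [mem_zKer]
      intro f
      exact (mem_zKer.1 hy) (f.comp e.symm.toMonoidHom)
    · intro hx
      refine ⟨e x, ?_, e.symm_apply_apply x⟩
      change e x ∈ zKer H'
      rw [mem_zKer] at hx ⊢
      intro f
      exact hx (f.comp e.toMonoidHom)
  have h2 : Group.FG (zKer H') := (Group.fg_iff_subgroup_fg _).2 h
  have h3 : Group.FG ((zKer H').map e.symm.toMonoidHom) :=
    Group.fg_of_surjective (e.symm.toMonoidHom.subgroupMap_surjective (zKer H'))
  rw [← h1]
  exact (Group.fg_iff_subgroup_fg _).1 h3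

/-- the restrictions pass to finite-index subgroups -/
theorem restricted_subgroup {G : Type u} [Group G] {N : ℕ} (h : Restricted G N) (H : Subgroup G)
    (hH : H.FiniteIndex) : Restricted H N := by
  refine ⟨fun K hK => ?_, h.2.subgroup H hH⟩
  let e : K ≃* K.map H.subtype := Subgroup.equivMapOfInjective K H.subtype H.subtype_injective
  obtain ⟨h1, h2⟩ := h.1 (K.map H.subtype) (finiteIndex_map_subtype H hH K hK)
  refine ⟨?_, zKer_fg_of_equiv e h2⟩
  intro k f hf hfs
  exact h1 k (fun x => f (e.symm x)) (fun x y i => by rw [map_mul, hf])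
    (hfs.comp e.symm.surjective)

/-- **Homomorphisms to tame groups** from finite-index subgroups have virtually abelian image. -/
theorem range_virtZ {G : Type u} [Group G] {N : ℕ} (h : Restricted G N) (H : Subgroup G)
    (hH : H.FiniteIndex) {Q : Type u} [Group Q] (hQ : Tame Q) (f : H →* Q) :
    VirtZLe f.range N := by
  have h1 := (group_main (restricted_subgroup h H hH)).2.1 f.range f.rangeRestrict
    f.rangeRestrict_surjective
  exact (h1.out 0 2 : Tame f.range ↔ VirtZLe f.range N).1
    (Tame.of_injective f.range.subtype f.range.subtype_injective hQ)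

end Vale.Agent.P284.H142
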