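import Vale.Agent.P284.H142.Struct
import Mathlib.RingTheory.FiniteType
import Mathlib.RingTheory.Ideal.MinimalPrime.Noetherian
import Mathlib.RingTheory.Noetherian.Nilpotent

/-! The universal representation of dimension `d` over `ℚ`-algebras (helper142). -/

set_option autoImplicit false

namespace Vale.Agent.P284.H142

open Function MvPolynomial

universe u v

section

variable (G : Type u) [Group G] (d : ℕ)

/-- the relations of the universal representation -/
noncomputable def relI : Ideal (MvPolynomial (G × Fin d × Fin d) ℚ) :=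
  Ideal.span ({p | ∃ g h i j, p = X (g * h, i, j) - ∑ c, X (g, i, c) * X (h, c, j)} ∪
    {p | ∃ i j, p = X (1, i, j) - C ((1 : Matrix (Fin d) (Fin d) ℚ) i j)})

/-- the universal ring -/
noncomputable abbrev URing := MvPolynomial (G × Fin d × Fin d) ℚ ⧸ relI G d

variable {G d}

/-- the coordinates -/
noncomputable def ue (g : G) (i j : Fin d) : URing G d := Ideal.Quotient.mk (relI G d) (X (g, i, j))

theorem ue_mul (g h : G) (i j : Fin d) : ue (g * h) i j = ∑ c, ue g i c * ue h c j := by
  unfold ue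
  have h1 : Ideal.Quotient.mk (relI G d)
      (X (g * h, i, j) - ∑ c, X (g, i, c) * X (h, c, j)) = 0 :=
    Ideal.Quotient.eq_zero_iff_mem.2 (Ideal.subset_span (Or.inl ⟨g, h, i, j, rfl⟩))
  rw [map_sub, map_sum, sub_eq_zero] at h1
  rw [h1]
  exact Finset.sum_congr rfl fun c _ => map_mul _ _ _

theorem ue_one (i j : Fin d) : ue (1 : G) i j =
    algebraMap ℚ (URing G d) ((1 : Matrix (Fin d) (Fin d) ℚ) i j) := by
  unfold ue
  have h1 : Ideal.Quotient.mk (relI G d)
      (X (1, i, j) - C ((1 : Matrix (Fin d) (Fin d) ℚ) i j)) = 0 :=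
    Ideal.Quotient.eq_zero_iff_mem.2 (Ideal.subset_span (Or.inr ⟨i, j, rfl⟩))
  rw [map_sub, sub_eq_zero] at h1
  rw [h1]
  rfl

variable (G d)

/-- the universal representation -/
noncomputable def urep : G →* Matrix (Fin d) (Fin d) (URing G d) where
  toFun g := Matrix.of (ue g)
  map_one' := by
    ext i j
    rw [Matrix.of_apply, ue_one, Matrix.one_apply, Matrix.one_apply]
    split_ifs
    · exact map_one _
    · exact map_zero _
  map_mul' g h := by
    ext i j
    rw [Matrix.of_apply, ue_mul, Matrix.mul_apply]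
    rfl

variable {G d}

theorem adjoin_ue : Algebra.adjoin ℚ (Set.range fun x : G × Fin d × Fin d =>
    (ue x.1 x.2.1 x.2.2 : URing G d)) = ⊤ := by
  have h1 : (Ideal.Quotient.mkₐ ℚ (relI G d)).range = ⊤ := by
    rw [AlgHom.range_eq_top]
    exact Ideal.Quotient.mkₐ_surjective ℚ _
  rw [← h1, ← Algebra.map_top, ← adjoin_range_X, AlgHom.map_adjoin, ← Set.range_comp]
  rfl

theorem finiteType [Group.FG G] : Algebra.FiniteType ℚ (URing G d) := by
  classical
  have hm : Monoid.FG G := inferInstance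
  obtain ⟨S, hS, hSf⟩ := Monoid.fg_iff.1 hm
  let T : Set (URing G d) := (fun x : G × Fin d × Fin d => ue x.1 x.2.1 x.2.2) '' (S ×ˢ Set.univ)
  have hT : T.Finite := (hSf.prod Set.finite_univ).image _
  have hmem : ∀ g : G, ∀ i j, ue g i j ∈ Algebra.adjoin ℚ T := by
    intro g
    have hg : g ∈ Submonoid.closure S := by rw [hS]; trivial
    induction hg using Submonoid.closure_induction with
    | mem g hg =>
      intro i j
      exact Algebra.subset_adjoin ⟨(g, i, j), ⟨hg, trivial⟩, rfl⟩
    | one =>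
      intro i j
      rw [ue_one]
      exact Subalgebra.algebraMap_mem _ _
    | mul g h _ _ hg hh =>
      intro i j
      rw [ue_mul]
      exact Subalgebra.sum_mem _ fun c _ => Subalgebra.mul_mem _ (hg i c) (hh c j)
  refine ⟨?_⟩
  have h1 : Algebra.adjoin ℚ T = ⊤ := by
    rw [eq_top_iff, ← adjoin_ue, Algebra.adjoin_le_iff]
    rintro _ ⟨x, rfl⟩
    exact hmem x.1 x.2.1 x.2.2
  rw [← h1, Subalgebra.fg_def]
  exact ⟨T, hT, rfl⟩

/-- every representation comes from the universal one -/
theorem exists_spec (R : Type v) [CommRing R] [Algebra ℚ R]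
    (ρ : G →* Matrix.GeneralLinearGroup (Fin d) R) :
    ∃ φ : URing G d →+* R, ∀ g, (ρ g : Matrix (Fin d) (Fin d) R) = (urep G d g).map φ := by
  let ψ : MvPolynomial (G × Fin d × Fin d) ℚ →ₐ[ℚ] R :=
    aeval fun x : G × Fin d × Fin d => (ρ x.1 : Matrix (Fin d) (Fin d) R) x.2.1 x.2.2
  have hψ : ∀ p ∈ relI G d, ψ.toRingHom p = 0 := by
    intro p hp
    have h1 : relI G d ≤ RingHom.ker ψ.toRingHom := by
      unfold relI
      rw [Ideal.span_le]
      rintro p (⟨g, h, i, j, rfl⟩ | ⟨i, j, rfl⟩)
      · change ψ _ = 0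
        rw [map_sub, map_sum, sub_eq_zero]
        simp only [map_mul, ψ, aeval_X, Units.val_mul, Matrix.mul_apply]
      · change ψ _ = 0
        rw [map_sub, sub_eq_zero]
        simp only [ψ, aeval_X, aeval_C, map_one, Units.val_one, Matrix.one_apply]
        split_ifs <;> simp
    exact h1 hp
  refine ⟨Ideal.Quotient.lift (relI G d) ψ.toRingHom hψ, fun g => ?_⟩
  ext i j
  rw [Matrix.map_apply]
  change _ = Ideal.Quotient.lift (relI G d) ψ.toRingHom hψ (Ideal.Quotient.mk _ (X (g, i, j)))
  rw [Ideal.Quotient.lift_mk]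
  change _ = ψ (X (g, i, j))
  simp only [ψ, aeval_X]

end

end Vale.Agent.P284.H142
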